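import Vale.Agent.P264.Energy.Annulus

/-!
Compactness on a bounded interval: on short cells a function is affine up to the dissipation, and
an affine function is determined by two moments.
-/

namespace Vale.Agent.P264.Energy

open Set Filter MeasureTheory Topology
open scoped ContDiff

/-- Cauchy-Schwarz against a constant. -/
lemma integral_sq_le {p q : ℝ} (hpq : p ≤ q) {f : ℝ → ℝ} (hf : ContinuousOn f (Icc p q)) :
    (∫ y in p..q, f y) ^ 2 ≤ (q - p) * ∫ y in p..q, f y ^ 2 := by
  rcases hpq.eq_or_lt with h | h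
  · subst h; simp
  set S := ∫ y in p..q, f y
  set c := S / (q - p)
  have h0 : 0 ≤ ∫ y in p..q, (f y - c) ^ 2 :=
    intervalIntegral.integral_nonneg hpq fun y _ => sq_nonneg _
  have e : (∫ y in p..q, (f y - c) ^ 2) = (∫ y in p..q, f y ^ 2) - 2 * c * S + (q - p) * c ^ 2 := by
    have i1 : IntervalIntegrable (fun y => f y ^ 2) volume p q :=
      (hf.pow 2).intervalIntegrable_of_Icc hpq
    have i2 : IntervalIntegrable (fun y => 2 * c * f y) volume p q :=
      (hf.intervalIntegrable_of_Icc hpq).const_mul _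
    simp only [show ∀ y, (f y - c) ^ 2 = f y ^ 2 - 2 * c * f y + c ^ 2 from fun y => by ring]
    rw [intervalIntegral.integral_add (i1.sub i2) intervalIntegrable_const,
      intervalIntegral.integral_sub i1 i2, intervalIntegral.integral_const_mul,
      intervalIntegral.integral_const, smul_eq_mul]
  have hc : (q - p) * c = S := by simp only [c]; field_simp
  have h1 := mul_nonneg (show 0 ≤ q - p by linarith) h0
  have e2 : (q - p) * ((∫ y in p..q, f y ^ 2) - 2 * c * S + (q - p) * c ^ 2) =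
      (q - p) * (∫ y in p..q, f y ^ 2) - 2 * ((q - p) * c) * S + ((q - p) * c) ^ 2 := by ring
  rw [e, e2, hc] at h1
  linarith

/-- On one cell. -/
lemma cell_le {p q : ℝ} (hpq : p < q) {V V1 V2 : ℝ → ℝ} (hd : ∀ y ∈ Icc p q, HasDerivAt V (V1 y) y)
    (hd1 : ∀ y ∈ Icc p q, HasDerivAt V1 (V2 y) y) (h2 : ContinuousOn V2 (Icc p q)) :
    (∫ y in p..q, V y ^ 2) ≤ 18 * (q - p) ^ 4 * (∫ y in p..q, V2 y ^ 2)
      + 48 * ((∫ y in p..q, V y) ^ 2 / (q - p)
        + (∫ y in p..q, (y - (p + q) / 2) * V y) ^ 2 / (q - p) ^ 3) := by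
  set m := (p + q) / 2 with hm
  set h := q - p with hh
  set I := ∫ y in p..q, V2 y ^ 2 with hI
  have hh0 : 0 < h := by simp only [hh]; linarith
  have hI0 : 0 ≤ I := intervalIntegral.integral_nonneg hpq.le fun y _ => sq_nonneg _
  have hmm : m ∈ Icc p q := ⟨by simp only [hm]; linarith, by simp only [hm]; linarith⟩
  have cV : ContinuousOn V (Icc p q) := fun y hy => (hd y hy).continuousAt.continuousWithinAt
  set e : ℝ → ℝ := fun y => V y - (V m + V1 m * (y - m)) with he
  have ce : ContinuousOn e (Icc p q) := by rw [he]; fun_prop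
  have hsl : ∀ y ∈ Icc p q, (V1 y - V1 m) ^ 2 ≤ h * I := by
    have key : ∀ u v, p ≤ u → u ≤ v → v ≤ q → (V1 v - V1 u) ^ 2 ≤ h * I := by
      intro u v hu huv hv
      have hs : Icc u v ⊆ Icc p q := Icc_subset_Icc hu hv
      have cd1 : ContinuousOn V1 (Icc u v) :=
        fun y hy => (hd1 y (hs hy)).continuousAt.continuousWithinAt
      rw [← intervalIntegral.integral_eq_sub_of_hasDerivAt_of_le huv cd1
        (fun y hy => hd1 y (hs (Ioo_subset_Icc_self hy)))
        ((h2.mono hs).intervalIntegrable_of_Icc huv)]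
      refine (integral_sq_le huv (h2.mono hs)).trans ?_
      refine mul_le_mul (by linarith) ?_ (intervalIntegral.integral_nonneg huv fun y _ => sq_nonneg _)
        hh0.le
      exact intervalIntegral.integral_mono_interval hu huv hv
        (Eventually.of_forall fun y => sq_nonneg _) ((h2.pow 2).intervalIntegrable_of_Icc hpq.le)
    intro y hy
    rcases le_total m y with hle | hle
    · exact key m y hmm.1 hle hy.2
    · rw [show (V1 y - V1 m) ^ 2 = (V1 m - V1 y) ^ 2 by ring]
      exact key y m hy.1 hle hmm.2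
  have hpt : ∀ y ∈ Icc p q, e y ^ 2 ≤ h ^ 3 * I := by
    intro y hy
    have hder : ∀ z ∈ Icc p q, HasDerivWithinAt e (V1 z - V1 m) (Icc p q) z := fun z hz => by
      refine (((hd z hz).sub ((((hasDerivAt_id z).sub_const m).const_mul (V1 m)).const_add (V m))
        ).congr_deriv ?_).hasDerivWithinAt
      ring
    have hb : ∀ z ∈ Icc p q, ‖V1 z - V1 m‖ ≤ Real.sqrt (h * I) := fun z hz => by
      rw [Real.norm_eq_abs, ← Real.sqrt_sq_eq_abs]; exact Real.sqrt_le_sqrt (hsl z hz)
    have := (convex_Icc p q).norm_image_sub_le_of_norm_hasDerivWithin_le hder hb hmm hy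
    rw [show e m = 0 by simp [he], sub_zero, Real.norm_eq_abs, Real.norm_eq_abs] at this
    have hym : |y - m| ≤ h := by
      rw [abs_le]; obtain ⟨a1, a2⟩ := hy; simp only [hm, hh]; constructor <;> linarith
    calc e y ^ 2 = |e y| ^ 2 := (sq_abs _).symm
      _ ≤ (Real.sqrt (h * I) * h) ^ 2 := by
          refine pow_le_pow_left₀ (abs_nonneg _) (this.trans ?_) 2
          exact mul_le_mul_of_nonneg_left hym (Real.sqrt_nonneg _)
      _ = h ^ 3 * I := by rw [mul_pow, Real.sq_sqrt (by positivity)]; ring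
  set E2 := ∫ y in p..q, e y ^ 2 with hE2
  have hE : E2 ≤ h ^ 4 * I := by
    have := integral_le_of_Ioo hpq.le (g := fun _ => h ^ 3 * I) (ce.pow 2) continuousOn_const
      fun y hy => hpt y (Ioo_subset_Icc_self hy)
    rw [intervalIntegral.integral_const, smul_eq_mul] at this
    exact this.trans (le_of_eq (by simp only [hh]; ring))
  have hE0 : 0 ≤ E2 := intervalIntegral.integral_nonneg hpq.le fun y _ => sq_nonneg _
  set c := V m
  set d := V1 m
  have cl : Continuous (fun y : ℝ => c + d * (y - m)) := by fun_prop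
  have P0 : (∫ y in p..q, (c + d * (y - m))) = h * c := by
    rw [intervalIntegral.integral_eq_sub_of_hasDerivAt (f := fun y => c * y + d * ((y - m) ^ 2 / 2))
      (fun y _ => ?_) (cl.intervalIntegrable p q)]
    · simp only [hm, hh]; ring
    · exact (((hasDerivAt_id y).const_mul c).add
        (((((hasDerivAt_id y).sub_const m).pow 2).div_const 2).const_mul d)).congr_deriv
        (by simp <;> ring)
  have P1 : (∫ y in p..q, (y - m) * (c + d * (y - m))) = h ^ 3 / 12 * d := by
    rw [intervalIntegral.integral_eq_sub_of_hasDerivAt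
      (f := fun y => c * ((y - m) ^ 2 / 2) + d * ((y - m) ^ 3 / 3))
      (fun y _ => ?_) ((show Continuous (fun y : ℝ => (y - m) * (c + d * (y - m))) by fun_prop).intervalIntegrable p q)]
    · simp only [hm, hh]; ring
    · exact ((((((hasDerivAt_id y).sub_const m).pow 2).div_const 2).const_mul c).add
        (((((hasDerivAt_id y).sub_const m).pow 3).div_const 3).const_mul d)).congr_deriv
        (by simp <;> ring)
  have P2 : (∫ y in p..q, (c + d * (y - m)) ^ 2) = h * c ^ 2 + h ^ 3 / 12 * d ^ 2 := by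
    rw [intervalIntegral.integral_eq_sub_of_hasDerivAt
      (f := fun y => c ^ 2 * y + c * d * (y - m) ^ 2 + d ^ 2 * ((y - m) ^ 3 / 3))
      (fun y _ => ?_) ((show Continuous (fun y : ℝ => (c + d * (y - m)) ^ 2) by fun_prop).intervalIntegrable p q)]
    · simp only [hm, hh]; ring
    · exact ((((hasDerivAt_id y).const_mul (c ^ 2)).add
        ((((hasDerivAt_id y).sub_const m).pow 2).const_mul (c * d))).add
        (((((hasDerivAt_id y).sub_const m).pow 3).div_const 3).const_mul (d ^ 2))).congr_deriv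
        (by simp <;> ring)
  set e0 := ∫ y in p..q, e y with he0
  set e1 := ∫ y in p..q, (y - m) * e y with he1
  have M0 : (∫ y in p..q, V y) = h * c + e0 := by
    rw [he0, ← P0, ← intervalIntegral.integral_add (cl.intervalIntegrable _ _)
      (ce.intervalIntegrable_of_Icc hpq.le)]
    exact intervalIntegral.integral_congr fun y _ => by simp [he, c, d]
  have M1 : (∫ y in p..q, (y - m) * V y) = h ^ 3 / 12 * d + e1 := by
    have cy : Continuous (fun y : ℝ => y - m) := by fun_prop
    have i1 : IntervalIntegrable (fun y => (y - m) * (c + d * (y - m))) volume p q :=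
      (cy.mul cl).intervalIntegrable _ _
    have i2 : IntervalIntegrable (fun y => (y - m) * e y) volume p q :=
      (cy.continuousOn.mul ce).intervalIntegrable_of_Icc hpq.le
    rw [he1, ← P1, ← intervalIntegral.integral_add i1 i2]
    exact intervalIntegral.integral_congr fun y _ => by simp [he, c, d]; ring
  have hV : (∫ y in p..q, V y ^ 2) ≤ 2 * (h * c ^ 2 + h ^ 3 / 12 * d ^ 2) + 2 * E2 := by
    have i1 : IntervalIntegrable (fun y => 2 * (c + d * (y - m)) ^ 2) volume p q :=
      ((cl.pow 2).intervalIntegrable _ _).const_mul 2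
    have i2 : IntervalIntegrable (fun y => 2 * e y ^ 2) volume p q :=
      ((ce.pow 2).intervalIntegrable_of_Icc hpq.le).const_mul 2
    rw [← P2, hE2, ← intervalIntegral.integral_const_mul, ← intervalIntegral.integral_const_mul,
      ← intervalIntegral.integral_add i1 i2]
    refine integral_le_of_Ioo hpq.le (cV.pow 2) (by fun_prop) fun y _ => ?_
    have : V y = (c + d * (y - m)) + e y := by simp [he, c, d]
    rw [this]; nlinarith [sq_nonneg (c + d * (y - m) - e y)]
  have he0' : e0 ^ 2 ≤ h * E2 := integral_sq_le hpq.le ce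
  have he1' : e1 ^ 2 ≤ h ^ 3 / 4 * E2 := by
    have cy : Continuous (fun y : ℝ => y - m) := by fun_prop
    refine (integral_sq_le hpq.le (cy.continuousOn.mul ce)).trans ?_
    have key : (∫ y in p..q, ((y - m) * e y) ^ 2) ≤ h ^ 2 / 4 * E2 := by
      rw [hE2, ← intervalIntegral.integral_const_mul]
      refine integral_le_of_Ioo hpq.le ((cy.continuousOn.mul ce).pow 2)
        (continuousOn_const.mul (ce.pow 2)) fun y hy => ?_
      obtain ⟨a1, a2⟩ := hy
      show ((y - m) * e y) ^ 2 ≤ h ^ 2 / 4 * e y ^ 2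
      rw [mul_pow]
      refine mul_le_mul_of_nonneg_right ?_ (sq_nonneg _)
      simp only [hm, hh]; nlinarith
    refine (mul_le_mul_of_nonneg_left key (show 0 ≤ q - p by linarith)).trans (le_of_eq ?_)
    simp only [hh]; ring
  set A := ∫ y in p..q, V y
  set B := ∫ y in p..q, (y - m) * V y
  have t0 : h * c ^ 2 ≤ 2 * (A ^ 2 / h) + 2 * E2 := by
    have : (h * c) ^ 2 ≤ 2 * A ^ 2 + 2 * (h * E2) := by
      have : h * c = A - e0 := by linarith
      rw [this]; nlinarith [sq_nonneg (A + e0)]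
    rw [← mul_le_mul_iff_right₀ hh0]
    calc h * (h * c ^ 2) = (h * c) ^ 2 := by ring
      _ ≤ 2 * A ^ 2 + 2 * (h * E2) := this
      _ = h * (2 * (A ^ 2 / h) + 2 * E2) := by field_simp
  have t1 : h ^ 3 / 12 * d ^ 2 ≤ 24 * (B ^ 2 / h ^ 3) + 6 * E2 := by
    have : (h ^ 3 / 12 * d) ^ 2 ≤ 2 * B ^ 2 + 2 * (h ^ 3 / 4 * E2) := by
      have : h ^ 3 / 12 * d = B - e1 := by linarith
      rw [this]; nlinarith [sq_nonneg (B + e1)]
    rw [← mul_le_mul_iff_right₀ (show 0 < h ^ 3 / 12 by positivity)]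
    calc h ^ 3 / 12 * (h ^ 3 / 12 * d ^ 2) = (h ^ 3 / 12 * d) ^ 2 := by ring
      _ ≤ 2 * B ^ 2 + 2 * (h ^ 3 / 4 * E2) := this
      _ = h ^ 3 / 12 * (24 * (B ^ 2 / h ^ 3) + 6 * E2) := by field_simp; ring
  have : 0 ≤ A ^ 2 / h := by positivity
  linarith

/-- A bump equal to one on `[p, q]`. -/
noncomputable def bump (e p q y : ℝ) : ℝ := step (p - e) p y * (1 - step q (q + e) y)

lemma bump_props {e p q : ℝ} (he : 0 < e) (hpq : p ≤ q) :
    ContDiff ℝ ∞ (bump e p q) ∧ (∀ y, |bump e p q y| ≤ 1) ∧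
    (∀ y ∈ Icc p q, bump e p q y = 1) ∧ ∀ y, y ∉ Ioo (p - e) (q + e) → bump e p q y = 0 := by
  refine ⟨(contDiff_step _ _).mul (contDiff_const.sub (contDiff_step _ _)), fun y => ?_,
    fun y hy => ?_, fun y hy => ?_⟩
  · have := step_nonneg (p - e) p y; have := step_le_one (p - e) p y
    have := step_nonneg q (q + e) y; have := step_le_one q (q + e) y
    unfold bump
    rw [abs_le]; constructor <;> nlinarith
  · simp [bump, step_eq_one (show p - e < p by linarith) hy.1,
      step_eq_zero (show q < q + e by linarith) hy.2]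
  · rcases not_and_or.1 (show ¬ (p - e < y ∧ y < q + e) from hy) with h | h
    · simp [bump, step_eq_zero (show p - e < p by linarith) (not_lt.1 h)]
    · simp [bump, step_eq_one (show q < q + e by linarith) (not_lt.1 h)]

/-- Replacing a sharp moment by a smooth one. -/
lemma moment_approx {Y a0 b0 e p q F : ℝ} (he : 0 < e) (hpq : p ≤ q) (ha0 : 0 ≤ a0)
    (hp : a0 ≤ p - e) (hq : q + e ≤ b0) (hb : b0 ≤ Y) {f V : ℝ → ℝ} (hf : Continuous f)
    (hF : ∀ y ∈ Icc (p - e) (q + e), |f y| ≤ F) (hV : ContinuousOn V (Icc 0 Y)) :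
    (∫ y in p..q, f y * V y) ^ 2 ≤ 3 * (∫ y in (0:ℝ)..Y, bump e p q y * f y * V y) ^ 2
      + 6 * e * F ^ 2 * ∫ y in a0..b0, V y ^ 2 := by
  obtain ⟨hs, h1, hin, hout⟩ := bump_props he hpq
  set g : ℝ → ℝ := fun y => bump e p q y * f y * V y with hg
  have cb : Continuous (bump e p q) := hs.continuous
  have cg : ContinuousOn g (Icc 0 Y) := by rw [hg]; fun_prop
  have hii : ∀ u v, 0 ≤ u → u ≤ v → v ≤ Y → IntervalIntegrable g volume u v :=
    fun u v hu huv hv => (cg.mono (Icc_subset_Icc hu hv)).intervalIntegrable_of_Icc huv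
  have hzero : ∀ u v, u ≤ v → (v ≤ p - e ∨ q + e ≤ u) → (∫ y in u..v, g y) = 0 := by
    intro u v huv h
    rw [integral_congr_Ioo huv (g := fun _ => (0:ℝ)) fun y hy => by
      have : y ∉ Ioo (p - e) (q + e) := fun hm => by
        rcases h with h | h <;> linarith [hy.1, hy.2, hm.1, hm.2]
      simp [hg, hout y this]]
    simp
  have hmid : (∫ y in p..q, g y) = ∫ y in p..q, f y * V y :=
    integral_congr_Ioo hpq fun y hy => by simp [hg, hin y (Ioo_subset_Icc_self hy)]
  have hsplit : (∫ y in (0:ℝ)..Y, g y) =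
      (∫ y in (p - e)..p, g y) + (∫ y in p..q, f y * V y) + ∫ y in q..(q + e), g y := by
    rw [← intervalIntegral.integral_add_adjacent_intervals
        (hii 0 (p - e) le_rfl (by linarith) (by linarith))
        (hii (p - e) Y (by linarith) (by linarith) le_rfl),
      ← intervalIntegral.integral_add_adjacent_intervals
        (hii (p - e) p (by linarith) (by linarith) (by linarith))
        (hii p Y (by linarith) (by linarith) le_rfl),
      ← intervalIntegral.integral_add_adjacent_intervals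
        (hii p q (by linarith) hpq (by linarith)) (hii q Y (by linarith) (by linarith) le_rfl),
      ← intervalIntegral.integral_add_adjacent_intervals
        (hii q (q + e) (by linarith) (by linarith) (by linarith))
        (hii (q + e) Y (by linarith) (by linarith) le_rfl),
      hzero 0 (p - e) (by linarith) (Or.inl le_rfl), hzero (q + e) Y (by linarith) (Or.inr le_rfl),
      hmid]
    ring
  set W := ∫ y in a0..b0, V y ^ 2
  have hsmall : ∀ u, p - e ≤ u → u + e ≤ q + e → (∫ y in u..(u + e), g y) ^ 2 ≤ e * F ^ 2 * W := by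
    intro u hu hv
    have hsub : Icc u (u + e) ⊆ Icc 0 Y := Icc_subset_Icc (by linarith) (by linarith)
    refine (integral_sq_le (by linarith) (cg.mono hsub)).trans ?_
    rw [add_sub_cancel_left, mul_assoc]
    refine mul_le_mul_of_nonneg_left ?_ he.le
    have hle := integral_le_of_Ioo (show u ≤ u + e by linarith)
      (f := fun y => g y ^ 2) (g := fun y => F ^ 2 * V y ^ 2) ((cg.mono hsub).pow 2)
      (continuousOn_const.mul ((hV.mono hsub).pow 2)) fun y hy => by
        have hb1 := h1 y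
        have hb2 := hF y ⟨by linarith [hy.1], by linarith [hy.2]⟩
        simp only [hg]
        rw [mul_pow]
        refine mul_le_mul_of_nonneg_right ?_ (sq_nonneg _)
        rw [← sq_abs, abs_mul]
        refine pow_le_pow_left₀ (by positivity) ?_ 2
        calc |bump e p q y| * |f y| ≤ 1 * F := mul_le_mul hb1 hb2 (abs_nonneg _) zero_le_one
          _ = F := one_mul F
    refine hle.trans ?_
    rw [intervalIntegral.integral_const_mul]
    refine mul_le_mul_of_nonneg_left ?_ (sq_nonneg F)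
    exact intervalIntegral.integral_mono_interval (by linarith) (by linarith) (by linarith)
      (Eventually.of_forall fun y => sq_nonneg _)
      (((hV.mono (Icc_subset_Icc ha0 hb)).pow 2).intervalIntegrable_of_Icc (by linarith))
  have s1 := hsmall (p - e) le_rfl (by linarith)
  have s2 := hsmall q (by linarith) (by linarith)
  rw [sub_add_cancel] at s1
  set T := ∫ y in (0:ℝ)..Y, g y
  set a1 := ∫ y in (p - e)..p, g y
  set a2 := ∫ y in q..(q + e), g y
  have : (∫ y in p..q, f y * V y) = T - a1 - a2 := by linarith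
  rw [this]
  nlinarith [sq_nonneg (T + a1), sq_nonneg (T + a2), sq_nonneg (a1 - a2)]

lemma origin_part (j : ℕ) {Y δ r η : ℝ} (hr : 0 < r) (hrδ : r ≤ δ) (hδY : δ ≤ Y)
    (hr2 : r ^ 2 ≤ η) {V : ℝ → ℝ} (hV : ContDiffOn ℝ ∞ V (Icc 0 Y)) :
    (∫ y in (0:ℝ)..r, rho j y * V y ^ 2) ≤ η * near δ V := by
  have hδ : 0 < δ := lt_of_lt_of_le hr hrδ
  have hY : 0 < Y := lt_of_lt_of_le hδ hδY
  have hsub : Icc (0:ℝ) r ⊆ Icc 0 Y := Icc_subset_Icc_right (by linarith)
  have hsubδ : Icc (0:ℝ) δ ⊆ Icc 0 Y := Icc_subset_Icc_right hδY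
  have cV := hV.continuousOn
  have cn : ContinuousOn (fun y => y ^ 3 * D1 Y V y ^ 2 + y * V y ^ 2) (Icc 0 Y) := by
    have := continuousOn_D1 hY hV; fun_prop
  have en : near δ V = ∫ y in (0:ℝ)..δ, (y ^ 3 * D1 Y V y ^ 2 + y * V y ^ 2) :=
    integral_congr_Ioo hδ.le fun y hy => by
      rw [deriv_eq_D1 hV ⟨hy.1, by linarith [hy.2]⟩]
  rw [en]
  have hη : 0 ≤ η := le_trans (sq_nonneg r) hr2
  calc (∫ y in (0:ℝ)..r, rho j y * V y ^ 2)
      ≤ ∫ y in (0:ℝ)..r, η * (y ^ 3 * D1 Y V y ^ 2 + y * V y ^ 2) := by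
        refine integral_le_of_Ioo hr.le ((continuous_rho j).continuousOn.mul ((cV.mono hsub).pow 2))
          (continuousOn_const.mul (cn.mono hsub)) fun y hy => ?_
        have hy0 := hy.1
        have h1 : rho j y ≤ η * y := by
          rw [rho_eq]
          calc y ^ 3 * wgt j y ≤ y ^ 3 * 1 := by gcongr; exact wgt_le_one j y
            _ = y ^ 2 * y := by ring
            _ ≤ η * y := by
                gcongr
                exact (pow_le_pow_left₀ hy0.le hy.2.le 2).trans hr2
        have h2 : 0 ≤ η * (y ^ 3 * D1 Y V y ^ 2) := by positivity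
        have := mul_le_mul_of_nonneg_right h1 (sq_nonneg (V y))
        show rho j y * V y ^ 2 ≤ η * (y ^ 3 * D1 Y V y ^ 2 + y * V y ^ 2)
        linarith
    _ ≤ η * ∫ y in (0:ℝ)..δ, (y ^ 3 * D1 Y V y ^ 2 + y * V y ^ 2) := by
        rw [intervalIntegral.integral_const_mul]
        refine mul_le_mul_of_nonneg_left (intervalIntegral.integral_mono_interval le_rfl hr.le
          hrδ ((ae_restrict_mem measurableSet_Ioc).mono fun y hy => ?_)
          ((cn.mono hsubδ).intervalIntegrable_of_Icc hδ.le)) hη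
        have := hy.1.le
        show 0 ≤ y ^ 3 * D1 Y V y ^ 2 + y * V y ^ 2
        positivity

lemma rho_bounds (j : ℕ) {r R : ℝ} (hr : 0 < r) {y : ℝ} (hy : y ∈ Icc (r / 2) (2 * R)) :
    (r / 2) ^ 3 / (1 + 4 * R ^ 2) ^ j ≤ rho j y := by
  have hy0 : 0 < y := by linarith [hy.1]
  have h1 : (r / 2) ^ 3 ≤ y ^ 3 := pow_le_pow_left₀ (by linarith) hy.1 3
  have h2 : (1 + y ^ 2) ^ j ≤ (1 + 4 * R ^ 2) ^ j :=
    pow_le_pow_left₀ (by positivity) (by nlinarith [hy.2]) j
  exact div_le_div₀ (by positivity) h1 (by positivity) h2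

lemma one_cell {Y r R h e : ℝ} (hh : 0 < h) (he0 : 0 < e) (he1 : e ≤ h / 2) (he2 : e ≤ r / 2)
    (hr : 0 < r) (hhR : h ≤ R) (hY : 2 * R ≤ Y) {p q : ℝ} (hp : r ≤ p) (hq : q ≤ R)
    (hlen : q - p = h) {V : ℝ → ℝ} (hV : ContDiffOn ℝ ∞ V (Icc 0 Y)) :
    (∫ y in p..q, V y ^ 2) ≤ 18 * h ^ 4 * (∫ y in p..q, D2 Y V y ^ 2)
      + (144 / h + 144 / h ^ 3) * ((∫ y in (0:ℝ)..Y, bump e p q y * V y) ^ 2
        + (∫ y in (0:ℝ)..Y, bump e p q y * (y - (p + q) / 2) * V y) ^ 2)
      + 576 * e / h * ∫ y in (r / 2)..(2 * R), V y ^ 2 := by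
  have hY0 : 0 < Y := by linarith
  have hlt : p < q := by linarith
  have hin : ∀ y ∈ Icc p q, y ∈ Ioo 0 Y := fun y hy =>
    ⟨by linarith [hy.1], by linarith [hy.2]⟩
  have hc := cell_le hlt (V := V) (V1 := D1 Y V) (V2 := D2 Y V)
    (fun y hy => hasDerivAt_D1 hV (hin y hy)) (fun y hy => hasDerivAt_D2 hY0 hV (hin y hy))
    ((continuousOn_D2 hY0 hV).mono fun y hy => Ioo_subset_Icc_self (hin y hy))
  rw [hlen] at hc
  have cV := hV.continuousOn
  have m0 := moment_approx (Y := Y) (a0 := r / 2) (b0 := 2 * R) (F := 1) he0 hlt.le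
    (by linarith) (by linarith) (by linarith) hY (f := fun _ => 1) continuous_const
    (fun y _ => by simp) cV
  simp only [one_mul, mul_one, one_pow] at m0
  have m1 := moment_approx (Y := Y) (a0 := r / 2) (b0 := 2 * R) (F := h) he0 hlt.le
    (by linarith) (by linarith) (by linarith) hY
    (f := fun y => y - (p + q) / 2) (by fun_prop)
    (fun y hy => by rw [abs_le]; constructor <;> linarith [hy.1, hy.2]) cV
  have hW : 0 ≤ ∫ y in (r / 2)..(2 * R), V y ^ 2 :=
    intervalIntegral.integral_nonneg (by linarith) fun y _ => sq_nonneg _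
  generalize (∫ y in p..q, V y ^ 2) = T at hc ⊢
  generalize (∫ y in p..q, V y) = A0 at hc m0
  generalize (∫ y in p..q, (y - (p + q) / 2) * V y) = B0 at hc m1
  generalize (∫ y in p..q, D2 Y V y ^ 2) = I at hc ⊢
  generalize (∫ y in (r / 2)..(2 * R), V y ^ 2) = W at m0 m1 hW ⊢
  generalize (∫ y in (0:ℝ)..Y, bump e p q y * V y) = A at m0 ⊢
  generalize (∫ y in (0:ℝ)..Y, bump e p q y * (y - (p + q) / 2) * V y) = B at m1 ⊢
  have d0 := div_le_div_of_nonneg_right m0 hh.le
  have d1 := div_le_div_of_nonneg_right m1 (pow_pos hh 3).le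
  have x0 : (3 * A ^ 2 + 6 * e * W) / h = 3 * (A ^ 2 / h) + 6 * (e / h * W) := by ring
  have x1 : (3 * B ^ 2 + 6 * e * h ^ 2 * W) / h ^ 3 = 3 * (B ^ 2 / h ^ 3) + 6 * (e / h * W) := by
    field_simp
  rw [x0] at d0
  rw [x1] at d1
  have e3 : (144 / h + 144 / h ^ 3) * (A ^ 2 + B ^ 2) + 576 * e / h * W =
      144 * (A ^ 2 / h) + 144 * (B ^ 2 / h ^ 3) + 144 / h * B ^ 2 + 144 / h ^ 3 * A ^ 2
        + 576 * (e / h * W) := by ring
  have q0 : 0 ≤ 144 / h * B ^ 2 := by positivity
  have q1 : 0 ≤ 144 / h ^ 3 * A ^ 2 := by positivity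
  have q2 : 0 ≤ e / h * W := by positivity
  linarith

theorem cell : CellTarget := by
  intro j _ _ δ m R η hδ hδR hm hη
  set r := min (δ / 2) (Real.sqrt η) with hr
  have hr0 : 0 < r := lt_min (by linarith) (Real.sqrt_pos.2 hη)
  have hrδ : r ≤ δ / 2 := min_le_left _ _
  have hr2 : r ^ 2 ≤ η :=
    (pow_le_pow_left₀ hr0.le (min_le_right _ _) 2).trans (le_of_eq (Real.sq_sqrt hη.le))
  have hR : 0 < R := lt_of_lt_of_le hδ hδR
  have hrR : r < R := by linarith
  obtain ⟨c0, hc0, hc00⟩ : ∃ c0, c0 = (r / 2) ^ 3 / (1 + 4 * R ^ 2) ^ j ∧ 0 < c0 :=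
    ⟨_, rfl, by positivity⟩
  obtain ⟨K, hK⟩ : ∃ K, K = 18 * R ^ 3 / (c0 * (m * r ^ 2)) := ⟨_, rfl⟩
  obtain ⟨n, hn⟩ := exists_nat_gt (K * (R - r) ^ 4 / η)
  obtain ⟨N, hN⟩ : ∃ N : ℕ, N = n + 1 := ⟨_, rfl⟩
  have hN1 : (1:ℝ) ≤ N := by simp [hN]
  have hnN : (n:ℝ) ≤ N := by simp [hN]
  have hNpos : (0:ℝ) < N := by linarith
  obtain ⟨h, hh⟩ : ∃ h, h = (R - r) / N := ⟨_, rfl⟩
  have hh0 : 0 < h := by rw [hh]; exact div_pos (by linarith) hNpos
  have hhR : h ≤ R := by
    rw [hh, div_le_iff₀ hNpos]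
    nlinarith
  have hKh : K * h ^ 4 ≤ η := by
    rw [hh, div_pow, ← mul_div_assoc, div_le_iff₀ (by positivity)]
    have h1 : K * (R - r) ^ 4 ≤ η * n := by
      rw [div_lt_iff₀ hη] at hn; linarith
    exact h1.trans (mul_le_mul_of_nonneg_left
      (hnN.trans (le_self_pow₀ hN1 (by norm_num))) hη.le)
  obtain ⟨e, he⟩ : ∃ e, e = min (h / 2) (min (r / 2) (η * c0 * h / (576 * N * R ^ 3))) := ⟨_, rfl⟩
  have he0 : 0 < e := by rw [he]; exact lt_min (by linarith) (lt_min (by linarith) (by positivity))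
  have he1 : e ≤ h / 2 := by rw [he]; exact min_le_left _ _
  have he2 : e ≤ r / 2 := by rw [he]; exact (min_le_right _ _).trans (min_le_left _ _)
  have he3 : R ^ 3 * (N * (576 * e / h)) / c0 ≤ η := by
    have h1 : e ≤ η * c0 * h / (576 * N * R ^ 3) := by
      rw [he]; exact (min_le_right _ _).trans (min_le_right _ _)
    rw [le_div_iff₀ (by positivity)] at h1
    rw [div_le_iff₀ hc00, ← mul_le_mul_iff_left₀ hh0]
    calc R ^ 3 * (N * (576 * e / h)) * h = e * (576 * N * R ^ 3) := by field_simp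
      _ ≤ η * c0 * h := h1
  obtain ⟨p, hp⟩ : ∃ p : ℕ → ℝ, p = fun i : ℕ => r + i * h := ⟨_, rfl⟩
  have hpN : p N = R := by simp only [hp, hh]; field_simp; ring
  have hmono : ∀ i, p (i + 1) = p i + h := fun i => by simp only [hp]; push_cast; ring
  have key : ∀ i < N, r ≤ p i ∧ p (i + 1) ≤ R := fun i hi => by
    refine ⟨?_, ?_⟩
    · simp only [hp]; nlinarith [show (0:ℝ) ≤ i by positivity]
    · rw [← hpN]; simp only [hp]
      have : (i:ℝ) + 1 ≤ N := by exact_mod_cast hi
      push_cast; nlinarith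
  refine ⟨N + N, Fin.append (fun i : Fin N => bump e (p i) (p (i + 1)))
    (fun (i : Fin N) y => bump e (p i) (p (i + 1)) y * (y - (p i + p (i + 1)) / 2)),
    R ^ 3 * (144 / h + 144 / h ^ 3) + 1, by positivity,
    fun i => ?_, fun Y a V hY hV ha ha0 hlow => ?_⟩
  · refine Fin.addCases (fun k => ?_) (fun k => ?_) i
    · rw [Fin.append_left]
      obtain ⟨k1, k2⟩ := key k k.isLt
      have hle : p k ≤ p (k + 1) := by rw [hmono]; linarith
      obtain ⟨hs, -, -, hz⟩ := bump_props he0 hle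
      exact ⟨hs, p k - e, p (k + 1) + e, by linarith, by linarith, by linarith, fun y hy =>
        hz y fun hm => hy (Ioo_subset_Icc_self hm)⟩
    · rw [Fin.append_right]
      obtain ⟨k1, k2⟩ := key k k.isLt
      have hle : p k ≤ p (k + 1) := by rw [hmono]; linarith
      obtain ⟨hs, -, -, hz⟩ := bump_props he0 hle
      refine ⟨hs.mul (contDiff_id.sub contDiff_const), p k - e, p (k + 1) + e, by linarith,
        by linarith, by linarith, fun y hy => ?_⟩
      show bump e (p k) (p (k + 1)) y * _ = 0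
      rw [hz y fun hm => hy (Ioo_subset_Icc_self hm), zero_mul]
  have hY0 : 0 < Y := by linarith
  rw [diss_eq hY0 hV]
  have cV := hV.continuousOn
  have cv2 : ContinuousOn (D2 Y V) (Icc 0 Y) := continuousOn_D2 hY0 hV
  have cr := continuous_rho j
  have cd : ContinuousOn (dI j (fun _ => 1) a (D2 Y V)) (Icc 0 Y) := by unfold dI; fun_prop
  have hWle : c0 * (∫ y in (r / 2)..(2 * R), V y ^ 2) ≤ wsq j 0 (fun _ => 1) Y V := by
    rw [← intervalIntegral.integral_const_mul]
    have hsub : Icc (r / 2) (2 * R) ⊆ Icc 0 Y := Icc_subset_Icc (by linarith) hY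
    refine le_trans (integral_le_of_Ioo (by linarith) (g := fun y => rho j y * V y ^ 2)
      (continuousOn_const.mul ((cV.mono hsub).pow 2))
      (cr.continuousOn.mul ((cV.mono hsub).pow 2)) fun y hy =>
        mul_le_mul_of_nonneg_right (hc0 ▸ rho_bounds j hr0 (Ioo_subset_Icc_self hy))
          (sq_nonneg _)) ?_
    simp only [wsq, pow_zero, one_mul]
    exact intervalIntegral.integral_mono_interval (by linarith) (by linarith) hY
      ((ae_restrict_mem measurableSet_Ioc).mono fun y hy =>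
        mul_nonneg (rho_nonneg j hy.1.le) (sq_nonneg _))
      ((cr.continuousOn.mul (cV.pow 2)).intervalIntegrable_of_Icc hY0.le)
  have hI : c0 * (m * r ^ 2) * (∫ y in r..R, D2 Y V y ^ 2)
      ≤ ∫ y in (0:ℝ)..Y, dI j (fun _ => 1) a (D2 Y V) y := by
    rw [← intervalIntegral.integral_const_mul]
    have hsub : Icc r R ⊆ Icc 0 Y := Icc_subset_Icc hr0.le (by linarith)
    refine le_trans (integral_le_of_Ioo hrR.le (g := dI j (fun _ => 1) a (D2 Y V))
      (continuousOn_const.mul ((cv2.mono hsub).pow 2)) (cd.mono hsub) fun y hy => ?_) ?_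
    · have h1 : c0 ≤ rho j y :=
        hc0 ▸ rho_bounds j hr0 ⟨by linarith [hy.1], by linarith [hy.2]⟩
      have h2 : m * r ^ 2 ≤ a y :=
        le_trans (mul_le_mul_of_nonneg_left (pow_le_pow_left₀ hr0.le hy.1.le 2) hm.le)
          (hlow y ⟨by linarith [hy.1], by linarith [hy.2]⟩)
      simp only [dI, one_pow, one_mul]
      rw [mul_assoc c0]
      exact mul_le_mul h1 (mul_le_mul_of_nonneg_right h2 (sq_nonneg _)) (by positivity)
        (rho_nonneg j (by linarith [hy.1]))
    · exact intervalIntegral.integral_mono_interval hr0.le hrR.le (by linarith)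
        ((ae_restrict_mem measurableSet_Ioc).mono fun y hy =>
          dI_nonneg j hy.1.le (ha0 y ⟨hy.1.le, hy.2⟩))
        (cd.intervalIntegrable_of_Icc hY0.le)
  have hfirst := origin_part j hr0 (show r ≤ δ by linarith) (show δ ≤ Y by linarith) hr2 hV
  have e1 : ∀ f : ℝ → ℝ, ContinuousOn f (Icc 0 Y) →
      ∑ i : Fin N, (∫ y in (p i)..(p (i + 1)), f y) = ∫ y in r..R, f y := fun f hf => by
    rw [Fin.sum_univ_eq_sum_range (fun i => ∫ y in (p i)..(p (i + 1)), f y),
      intervalIntegral.sum_integral_adjacent_intervals (fun i hi => ?_), hpN]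
    · simp [hp]
    · obtain ⟨h1, h2⟩ := key i hi
      exact (hf.mono (Icc_subset_Icc (by linarith) (by linarith))).intervalIntegrable_of_Icc
        (by rw [hmono]; linarith)
  have hsum : (∫ y in r..R, V y ^ 2) ≤ 18 * h ^ 4 * (∫ y in r..R, D2 Y V y ^ 2)
      + (144 / h + 144 / h ^ 3) * ∑ i : Fin (N + N),
          (∫ y in (0:ℝ)..Y, Fin.append (fun i : Fin N => bump e (p i) (p (i + 1)))
            (fun (i : Fin N) y => bump e (p i) (p (i + 1)) y * (y - (p i + p (i + 1)) / 2)) i y
              * V y) ^ 2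
      + N * (576 * e / h * ∫ y in (r / 2)..(2 * R), V y ^ 2) := by
    rw [← e1 (fun y => V y ^ 2) (cV.pow 2), ← e1 (fun y => D2 Y V y ^ 2) (cv2.pow 2),
      Fin.sum_univ_add]
    simp only [Fin.append_left, Fin.append_right]
    refine (Finset.sum_le_sum fun (i : Fin N) _ => one_cell (Y := Y) hh0 he0 he1 he2 hr0 hhR hY
      (key i i.isLt).1 (key i i.isLt).2 (by rw [hmono]; ring) hV).trans (le_of_eq ?_)
    rw [Finset.sum_add_distrib, Finset.sum_add_distrib, ← Finset.mul_sum, ← Finset.mul_sum,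
      Finset.sum_add_distrib, Finset.sum_const, Finset.card_univ, Fintype.card_fin, nsmul_eq_mul]
  have hlast : (∫ y in r..R, rho j y * V y ^ 2) ≤ R ^ 3 * ∫ y in r..R, V y ^ 2 := by
    rw [← intervalIntegral.integral_const_mul]
    have hsub : Icc r R ⊆ Icc 0 Y := Icc_subset_Icc hr0.le (by linarith)
    refine integral_le_of_Ioo hrR.le (cr.continuousOn.mul ((cV.mono hsub).pow 2))
      (continuousOn_const.mul ((cV.mono hsub).pow 2)) fun y hy => ?_
    refine mul_le_mul_of_nonneg_right ?_ (sq_nonneg _)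
    have hy0 : 0 ≤ y := by linarith [hy.1]
    rw [rho_eq]
    calc y ^ 3 * wgt j y ≤ R ^ 3 * 1 :=
          mul_le_mul (pow_le_pow_left₀ hy0 hy.2.le 3) (wgt_le_one j y) (wgt_pos j y).le
            (by positivity)
      _ = R ^ 3 := mul_one _
  have hsplit : (∫ y in (0:ℝ)..R, rho j y * V y ^ 2) =
      (∫ y in (0:ℝ)..r, rho j y * V y ^ 2) + ∫ y in r..R, rho j y * V y ^ 2 := by
    have c : ContinuousOn (fun y => rho j y * V y ^ 2) (Icc 0 Y) := by fun_prop
    rw [intervalIntegral.integral_add_adjacent_intervals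
      ((c.mono (Icc_subset_Icc_right (by linarith))).intervalIntegrable_of_Icc hr0.le)
      ((c.mono (Icc_subset_Icc hr0.le (by linarith))).intervalIntegrable_of_Icc hrR.le)]
  rw [hsplit]
  have hI0 : 0 ≤ ∫ y in r..R, D2 Y V y ^ 2 :=
    intervalIntegral.integral_nonneg hrR.le fun y _ => sq_nonneg _
  have hW0 : 0 ≤ ∫ y in (r / 2)..(2 * R), V y ^ 2 :=
    intervalIntegral.integral_nonneg (by linarith) fun y _ => sq_nonneg _
  generalize hS : ∑ i : Fin (N + N), (∫ y in (0:ℝ)..Y,
    Fin.append (fun i : Fin N => bump e (p i) (p (i + 1)))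
      (fun (i : Fin N) y => bump e (p i) (p (i + 1)) y * (y - (p i + p (i + 1)) / 2)) i y
        * V y) ^ 2 = S at hsum ⊢
  have hS0 : 0 ≤ S := hS ▸ Finset.sum_nonneg fun i _ => sq_nonneg _
  generalize (∫ y in r..R, D2 Y V y ^ 2) = I2 at hI hI0 hsum
  generalize (∫ y in (r / 2)..(2 * R), V y ^ 2) = W at hWle hW0 hsum
  generalize (∫ y in (0:ℝ)..Y, dI j (fun _ => 1) a (D2 Y V) y) = D at hI ⊢
  generalize (∫ y in (0:ℝ)..r, rho j y * V y ^ 2) = P0 at hfirst ⊢
  generalize (∫ y in r..R, rho j y * V y ^ 2) = P1 at hlast ⊢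
  generalize (∫ y in r..R, V y ^ 2) = U at hlast hsum
  generalize near δ V = Nr at hfirst ⊢
  generalize wsq j 0 (fun _ => 1) Y V = Wq at hWle ⊢
  have t1 : R ^ 3 * (18 * h ^ 4 * I2) ≤ η * D := by
    calc R ^ 3 * (18 * h ^ 4 * I2) = K * h ^ 4 * (c0 * (m * r ^ 2) * I2) := by
          simp only [hK]; field_simp
      _ ≤ η * D := mul_le_mul hKh hI (by positivity) hη.le
  have t2 : R ^ 3 * (N * (576 * e / h * W)) ≤ η * Wq := by
    calc R ^ 3 * (N * (576 * e / h * W)) = R ^ 3 * (N * (576 * e / h)) / c0 * (c0 * W) := by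
          field_simp
      _ ≤ η * Wq := mul_le_mul he3 hWle (by positivity) hη.le
  have t3 := mul_le_mul_of_nonneg_left hsum (pow_nonneg hR.le 3)
  rw [mul_add, mul_add] at t3
  linarith

end Vale.Agent.P264.Energy
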