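import Vale.Agent.P264.Energy.Coercive

/-!
Pairing with a forcing `dst (a * K)`.
-/

namespace Vale.Agent.P264.Energy

open Set Filter MeasureTheory Topology Asymptotics
open scoped ContDiff

/-- A product with a factor vanishing to second order has zero slope. -/
lemma slope_zero_of_factor {Y : ℝ} (hY : 0 < Y) {a F K : ℝ → ℝ}
    (ha : ContDiffOn ℝ ∞ a (Icc 0 Y)) (h0 : a Y = 0) (h1 : D1 Y a Y = 0)
    (hK : ContinuousOn K (Icc 0 Y)) (hF : ∀ y ∈ Icc 0 Y, F y = a y * K y) :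
    D1 Y F Y = 0 := by
  have hm : Y ∈ Icc 0 Y := right_mem_Icc.2 hY.le
  have hd : HasDerivWithinAt a 0 (Icc 0 Y) Y := by
    have h := (ha.differentiableOn (by norm_num) Y hm).hasDerivWithinAt
    rw [show derivWithin a (Icc 0 Y) Y = 0 from h1] at h
    exact h
  have ho := hasDerivWithinAt_iff_isLittleO.1 hd
  simp only [h0, sub_zero, smul_eq_mul, mul_zero] at ho
  have hb : K =O[𝓝[Icc 0 Y] Y] (fun _ => (1:ℝ)) := (hK Y hm).isBigO_one ℝ
  have hp := ho.mul_isBigO hb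
  simp only [mul_one] at hp
  have hprod : HasDerivWithinAt (fun y => a y * K y) 0 (Icc 0 Y) Y := by
    refine hasDerivWithinAt_iff_isLittleO.2 ?_
    simpa [h0] using hp
  rw [D1, derivWithin_congr hF (hF Y hm)]
  exact hprod.derivWithin ((uniqueDiffOn_Icc hY) Y hm)

/-- Bounds next to the origin. -/
lemma forcing_near {j : ℕ} (hj : j ≤ 6) {Y M G δ : ℝ} {a κ V W : ℝ → ℝ} (hδ1 : δ ≤ 1 / 100)
    (ha : Coef Y M δ a) (hκ : Cut Y G δ κ) {y : ℝ} (hy : y ∈ Ioo 0 Y) (hyδ : y < δ) {e : ℝ}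
    (he : 0 < e) (v1 : ℝ) :
    |a y * W y * pA j κ y * v1| ≤ e * (κ 0 ^ 8 * (y ^ 3 * v1 ^ 2)) + 41 / e * dI j κ a W y ∧
    |a y * W y * pB j κ y * V y| ≤ e * (κ 0 ^ 8 * (y * V y ^ 2)) + 250 / e * dI j κ a W y := by
  obtain ⟨w0, w1', w2'⟩ := wgt_near j hj hy.1.le (by linarith)
  obtain ⟨e0, eA, eB⟩ := coef_flat hκ j hyδ
  have hw1 := wgt_le_one j y
  have hwp := wgt_pos j y
  obtain ⟨n1, n2⟩ := abs_le.1 (ha.near0 y ⟨hy.1.le, hyδ.le⟩)
  have hy0 := hy.1
  have hK : 0 ≤ κ 0 ^ 8 := pow_nonneg (hκ.nonneg 0) 8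
  have hP : κ 0 ^ 8 * (y ^ 5 * W y ^ 2) * (98 / 100) ≤ dI j κ a W y := by
    simp only [dI, hκ.flat y hyδ.le, rho_eq]
    calc κ 0 ^ 8 * (y ^ 5 * W y ^ 2) * (98 / 100)
        ≤ κ 0 ^ 8 * (y ^ 5 * W y ^ 2) * (999 / 1000 * (99 / 100)) :=
          mul_le_mul_of_nonneg_left (by norm_num) (by positivity)
      _ = κ 0 ^ 8 * (y ^ 3 * (999 / 1000)) * (99 / 100 * y ^ 2 * W y ^ 2) := by ring
      _ ≤ κ 0 ^ 8 * (y ^ 3 * wgt j y) * (a y * W y ^ 2) := by
          gcongr
          linarith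
  have hA2 : a y ≤ 101 / 100 * y ^ 2 := by linarith
  have hap := (ha.pos y hy).le
  constructor
  · have hb : |2 * y ^ 3 * wgt1 j y - 8 * y ^ 2 * wgt j y| ≤ 81 / 10 * y ^ 2 := by
      rw [show 2 * y ^ 3 * wgt1 j y - 8 * y ^ 2 * wgt j y
        = y ^ 2 * (2 * (y * wgt1 j y) - 8 * wgt j y) by ring, abs_mul,
        abs_of_nonneg (sq_nonneg y), mul_comm (81 / 10 : ℝ)]
      refine mul_le_mul_of_nonneg_left ?_ (sq_nonneg y)
      obtain ⟨a1, a2⟩ := abs_le.1 w1'
      rw [abs_le]; constructor <;> linarith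
    calc |a y * W y * pA j κ y * v1|
        = κ 0 ^ 8 * (a y * |2 * y ^ 3 * wgt1 j y - 8 * y ^ 2 * wgt j y| * |W y * v1|) := by
          rw [eA]; simp only [abs_mul, abs_of_nonneg hK, abs_of_nonneg hap]; ring
      _ ≤ κ 0 ^ 8 * (101 / 100 * y ^ 2 * (81 / 10 * y ^ 2) * |W y * v1|) := by gcongr
      _ = κ 0 ^ 8 * y ^ 3 * |v1 * (8181 / 1000 * y * W y)| := by
          simp only [abs_mul, abs_of_nonneg (show (0:ℝ) ≤ 8181 / 1000 by norm_num),
            abs_of_nonneg hy0.le]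
          ring
      _ ≤ κ 0 ^ 8 * y ^ 3 * (e * v1 ^ 2 + (8181 / 1000 * y * W y) ^ 2 / (4 * e)) :=
          mul_le_mul_of_nonneg_left (amgm he _ _) (by positivity)
      _ = e * (κ 0 ^ 8 * (y ^ 3 * v1 ^ 2))
          + (8181 / 1000) ^ 2 / 4 / (98 / 100) / e * (κ 0 ^ 8 * (y ^ 5 * W y ^ 2) * (98 / 100)) := by
          field_simp
      _ ≤ e * (κ 0 ^ 8 * (y ^ 3 * v1 ^ 2)) + 41 / e * dI j κ a W y := by
          have : 0 ≤ κ 0 ^ 8 * (y ^ 5 * W y ^ 2) * (98 / 100) := by positivity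
          have := dI_nonneg (κ := κ) (W := W) j hy0.le hap
          gcongr
          norm_num
  · have hb : |y ^ 3 * wgt2 j y - 8 * y ^ 2 * wgt1 j y + 20 * y * wgt j y| ≤ 201 / 10 * y := by
      rw [show y ^ 3 * wgt2 j y - 8 * y ^ 2 * wgt1 j y + 20 * y * wgt j y
        = y * (y ^ 2 * wgt2 j y - 8 * (y * wgt1 j y) + 20 * wgt j y) by ring, abs_mul,
        abs_of_pos hy0, mul_comm (201 / 10 : ℝ)]
      refine mul_le_mul_of_nonneg_left ?_ hy0.le
      obtain ⟨a1, a2⟩ := abs_le.1 w1'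
      obtain ⟨b1, b2⟩ := abs_le.1 w2'
      rw [abs_le]; constructor <;> linarith
    calc |a y * W y * pB j κ y * V y|
        = κ 0 ^ 8 * (a y * |y ^ 3 * wgt2 j y - 8 * y ^ 2 * wgt1 j y + 20 * y * wgt j y|
            * |W y * V y|) := by
          rw [eB]; simp only [abs_mul, abs_of_nonneg hK, abs_of_nonneg hap]; ring
      _ ≤ κ 0 ^ 8 * (101 / 100 * y ^ 2 * (201 / 10 * y) * |W y * V y|) := by gcongr
      _ = κ 0 ^ 8 * y * |V y * (20301 / 1000 * y ^ 2 * W y)| := by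
          simp only [abs_mul, abs_of_nonneg (show (0:ℝ) ≤ 20301 / 1000 by norm_num),
            abs_of_nonneg (sq_nonneg y)]
          ring
      _ ≤ κ 0 ^ 8 * y * (e * V y ^ 2 + (20301 / 1000 * y ^ 2 * W y) ^ 2 / (4 * e)) :=
          mul_le_mul_of_nonneg_left (amgm he _ _) (by positivity)
      _ = e * (κ 0 ^ 8 * (y * V y ^ 2))
          + (20301 / 1000) ^ 2 / 4 / (98 / 100) / e
            * (κ 0 ^ 8 * (y ^ 5 * W y ^ 2) * (98 / 100)) := by
          field_simp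
      _ ≤ e * (κ 0 ^ 8 * (y * V y ^ 2)) + 250 / e * dI j κ a W y := by
          have : 0 ≤ κ 0 ^ 8 * (y ^ 5 * W y ^ 2) * (98 / 100) := by positivity
          have := dI_nonneg (κ := κ) (W := W) j hy0.le hap
          gcongr
          norm_num

/-- The cut-off integrand of `near` is below `near`. -/
lemma inner_near_le {δ Y : ℝ} (hδ : 0 < δ) (hδY : δ ≤ Y) {V : ℝ → ℝ}
    (hV : ContDiffOn ℝ ∞ V (Icc 0 Y)) :
    (∫ y in (0:ℝ)..Y, inner δ y * nI Y V y) ≤ near δ V := by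
  have hY : 0 < Y := lt_of_lt_of_le hδ hδY
  have cV1 := continuousOn_D1 hY hV
  have cV := hV.continuousOn
  have ci : Continuous (inner δ) := continuous_const.sub (contDiff_step _ _).continuous
  have cn : ContinuousOn (nI Y V) (Icc 0 Y) := by unfold nI; fun_prop
  have cf : ContinuousOn (fun y => inner δ y * nI Y V y) (Icc 0 Y) := by fun_prop
  have hsub : Icc (0:ℝ) δ ⊆ Icc 0 Y := Icc_subset_Icc_right hδY
  have i1 : IntervalIntegrable (fun y => inner δ y * nI Y V y) volume 0 δ :=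
    (cf.mono hsub).intervalIntegrable_of_Icc hδ.le
  have i2 : IntervalIntegrable (fun y => inner δ y * nI Y V y) volume δ Y :=
    (cf.mono (Icc_subset_Icc_left hδ.le)).intervalIntegrable_of_Icc hδY
  have e : (∫ y in δ..Y, inner δ y * nI Y V y) = 0 := by
    rw [integral_congr_Ioo hδY (g := fun _ => (0:ℝ)) fun y hy => by
      rw [inner_right hδ hy.1.le, zero_mul]]
    simp
  have en : near δ V = ∫ y in (0:ℝ)..δ, nI Y V y :=
    integral_congr_Ioo hδ.le fun y hy => by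
      rw [nI, deriv_eq_D1 hV ⟨hy.1, lt_of_lt_of_le hy.2 hδY⟩]
  rw [← intervalIntegral.integral_add_adjacent_intervals i1 i2, e, add_zero, en]
  exact integral_le_of_Ioo hδ.le (cf.mono hsub) (cn.mono hsub) fun y hy =>
    mul_le_of_le_one_left (nI_nonneg hy.1.le) (inner_le_one _ _)

theorem forcing : ForcingTarget := by
  refine ⟨1 / 100, by norm_num, fun j _ hj6 M G δ hδ hδ1 ε hε => ?_⟩
  obtain ⟨C1, hC1, hcross⟩ := cross j M G δ hδ
  obtain ⟨C3, hC3, hann⟩ := annulus j M G δ hδ 1 one_pos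
  refine ⟨1 / ε + 291 * 4 / ε + 4 * C1 / ε + C1 + ε / 4 * C3 + 1, by positivity,
    fun Y a κ V F K hδY ha hκ hedge hV hF hK hFK => ?_⟩
  have hY : 0 < Y := lt_of_lt_of_le hδ hδY
  have hedge' : κ Y = 0 ∨ a Y = 0 := hedge.imp id And.left
  have hE : κ Y = 0 ∨ (F Y = 0 ∧ D1 Y F Y = 0) := by
    rcases hedge with h | ⟨h, h'⟩
    · exact Or.inl h
    · refine Or.inr ⟨by rw [hFK Y (right_mem_Icc.2 hY.le), h, zero_mul], ?_⟩
      exact slope_zero_of_factor hY ha.smooth h h' hK hFK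
  have hann' := hann Y a κ V hδY ha hκ hedge' hV
  rw [pairing hκ j hY hV hF hE]
  rw [diss_eq hY hV, loss_eq, one_mul] at hann'
  rw [diss_eq hY hV, loss_eq, show fsq j κ Y a K = ∫ y in (0:ℝ)..Y, dI j κ a K y from rfl]
  set N : ℝ → ℝ := fun y => inner δ y * nI Y V y with hN
  set Qd : ℝ → ℝ := fun y => qW j δ κ a y * D1 Y V y ^ 2 with hQd
  have ca := ha.smooth.continuousOn
  have cV := hV.continuousOn
  have cV1 := continuousOn_D1 hY hV
  have cV2 := continuousOn_D2 hY hV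
  have cF := hF.continuousOn
  have cD := continuousOn_dI j hκ ca cV2
  have cK := continuousOn_dI j hκ ca hK
  have cL := continuousOn_lI j hκ cV
  have cq := continuousOn_qW (δ := δ) j hκ ca
  have ch := continuous_hfn hκ j
  have cA := continuous_pA hκ j
  have cB := continuous_pB hκ j
  have ci : Continuous (inner δ) := continuous_const.sub (contDiff_step _ _).continuous
  have cn : ContinuousOn (nI Y V) (Icc 0 Y) := by unfold nI; fun_prop
  have cN : ContinuousOn N (Icc 0 Y) := by rw [hN]; fun_prop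
  have cQ : ContinuousOn Qd (Icc 0 Y) := by rw [hQd]; fun_prop
  set J : ℝ → ℝ := fun y => F y * (y ^ 3 * hfn j κ y * D2 Y V y + pA j κ y * D1 Y V y
    + pB j κ y * V y) with hJ
  have cJ : ContinuousOn J (Icc 0 Y) := by rw [hJ]; fun_prop
  have hK8 : 0 ≤ κ 0 ^ 8 := pow_nonneg (hκ.nonneg 0) 8
  have hpt : ∀ y ∈ Ioo 0 Y, |J y| ≤
      ε / 4 * dI j κ a (D2 Y V) y + ε / 4 * (κ 0 ^ 8 * N y) + ε / 4 * Qd y
      + ((1 / ε + 291 * 4 / ε + 4 * C1 / ε + 1) * dI j κ a K y + C1 * lI j κ V y) := by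
    intro y hy
    have hy0 := hy.1
    have hap := (ha.pos y hy).le
    have hP := dI_nonneg (κ := κ) (W := K) j hy0.le hap
    have hL : 0 ≤ lI j κ V y := lI_nonneg j hy0.le
    have hQ : 0 ≤ Qd y := qW_nonneg ha hκ hy
    have hN0 : 0 ≤ κ 0 ^ 8 * N y :=
      mul_nonneg hK8 (mul_nonneg (inner_nonneg _ _) (nI_nonneg hy0.le))
    have e : J y = rho j y * a y * ((κ y ^ 4 * D2 Y V y) * (κ y ^ 4 * K y))
        + (a y * K y * pA j κ y * D1 Y V y + a y * K y * pB j κ y * V y) := by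
      simp only [hJ, hFK y (Ioo_subset_Icc_self hy), hfn, rho_eq]; ring
    have t0 : |rho j y * a y * ((κ y ^ 4 * D2 Y V y) * (κ y ^ 4 * K y))| ≤
        ε / 4 * dI j κ a (D2 Y V) y + 1 / ε * dI j κ a K y := by
      rw [abs_mul, abs_of_nonneg (mul_nonneg (rho_nonneg j hy0.le) hap)]
      refine (mul_le_mul_of_nonneg_left (amgm (show (0:ℝ) < ε / 4 by positivity) _ _)
        (mul_nonneg (rho_nonneg j hy0.le) hap)).trans (le_of_eq ?_)
      simp only [dI]; field_simp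
    have t12 : |a y * K y * pA j κ y * D1 Y V y| + |a y * K y * pB j κ y * V y| ≤
        ε / 4 * (κ 0 ^ 8 * N y) + ε / 4 * Qd y
        + ((291 * 4 / ε + 4 * C1 / ε + 1) * dI j κ a K y + C1 * lI j κ V y) := by
      have h1 : 0 ≤ ε / 4 * (κ 0 ^ 8 * N y) := by positivity
      have h2 : 0 ≤ ε / 4 * Qd y := by positivity
      have h3 : 0 ≤ 291 * 4 / ε * dI j κ a K y := by positivity
      have h4 : 0 ≤ 4 * C1 / ε * dI j κ a K y := by positivity
      rcases lt_or_ge y (δ / 2) with h | h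
      · obtain ⟨c1, c2⟩ := forcing_near (V := V) (W := K) hj6 hδ1 ha hκ hy (by linarith)
          (show (0:ℝ) < ε / 4 by positivity) (D1 Y V y)
        have hNe : κ 0 ^ 8 * N y =
            κ 0 ^ 8 * (y ^ 3 * D1 Y V y ^ 2) + κ 0 ^ 8 * (y * V y ^ 2) := by
          simp only [hN, inner_left hδ h.le, nI]; ring
        rw [hNe, show 41 / (ε / 4) = 41 * 4 / ε by field_simp] at *
        rw [show 250 / (ε / 4) = 250 * 4 / ε by field_simp] at c2
        have : 291 * 4 / ε = 41 * 4 / ε + 250 * 4 / ε := by ring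
        rw [this]
        linarith [mul_nonneg hC1.le hL]
      · obtain ⟨c1, -⟩ := hcross Y a κ V ha hκ y hy h (4 * C1 / ε) (by positivity) (D1 Y V y) K
        obtain ⟨-, c2⟩ := hcross Y a κ V ha hκ y hy h 1 one_pos (D1 Y V y) K
        rw [show C1 / (4 * C1 / ε) = ε / 4 by field_simp] at c1
        rw [div_one, one_mul] at c2
        have : Qd y = qW j δ κ a y * D1 Y V y ^ 2 := rfl
        rw [← this] at c1
        linarith
    rw [e]
    refine (abs_add_le _ _).trans ((add_le_add t0 ((abs_add_le _ _).trans t12)).trans (le_of_eq ?_))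
    ring
  have h := (intervalIntegral.abs_integral_le_integral_abs hY.le).trans
    (integral_le_of_Ioo hY.le cJ.abs (by fun_prop) hpt)
  have iD := cD.intervalIntegrable_of_Icc (μ := volume) hY.le
  have iK := cK.intervalIntegrable_of_Icc (μ := volume) hY.le
  have iN := cN.intervalIntegrable_of_Icc (μ := volume) hY.le
  have iL := cL.intervalIntegrable_of_Icc (μ := volume) hY.le
  have iQ := cQ.intervalIntegrable_of_Icc (μ := volume) hY.le
  rw [intervalIntegral.integral_add (((iD.const_mul _).add ((iN.const_mul _).const_mul _)).add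
      (iQ.const_mul _)) ((iK.const_mul _).add (iL.const_mul _)),
    intervalIntegral.integral_add ((iD.const_mul _).add ((iN.const_mul _).const_mul _))
      (iQ.const_mul _),
    intervalIntegral.integral_add (iD.const_mul _) ((iN.const_mul _).const_mul _),
    intervalIntegral.integral_add (iK.const_mul _) (iL.const_mul _)] at h
  simp only [intervalIntegral.integral_const_mul] at h
  refine h.trans ?_
  have hn := mul_le_mul_of_nonneg_left (inner_near_le hδ hδY hV) hK8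
  have hnn : 0 ≤ ∫ y in (0:ℝ)..Y, N y := intervalIntegral.integral_nonneg hY.le fun y hy =>
    mul_nonneg (inner_nonneg _ _) (nI_nonneg hy.1)
  have hl : 0 ≤ ∫ y in (0:ℝ)..Y, lI j κ V y :=
    intervalIntegral.integral_nonneg hY.le fun y hy => lI_nonneg j hy.1
  have hd : 0 ≤ ∫ y in (0:ℝ)..Y, dI j κ a (D2 Y V) y :=
    intervalIntegral.integral_nonneg hY.le fun y hy => dI_nonneg j hy.1 (ha.nonneg hY hy)
  have hf : 0 ≤ ∫ y in (0:ℝ)..Y, dI j κ a K y :=
    intervalIntegral.integral_nonneg hY.le fun y hy => dI_nonneg j hy.1 (ha.nonneg hY hy)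
  have hN2 : 0 ≤ κ 0 ^ 8 * ∫ y in (0:ℝ)..Y, N y := mul_nonneg hK8 hnn
  have hA := mul_le_mul_of_nonneg_left hann' (show 0 ≤ ε / 4 by positivity)
  generalize (∫ y in (0:ℝ)..Y, dI j κ a (D2 Y V) y) = ID at *
  generalize (∫ y in (0:ℝ)..Y, lI j κ V y) = IL at *
  generalize (∫ y in (0:ℝ)..Y, dI j κ a K y) = IK at *
  generalize (∫ y in (0:ℝ)..Y, Qd y) = IQ at *
  have hn' := mul_le_mul_of_nonneg_left hn (show 0 ≤ ε / 4 by positivity)
  have h9 : 0 ≤ (ε / 4 * C3) * IK := by positivity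
  have h10 : 0 ≤ (1 / ε + 291 * 4 / ε + 4 * C1 / ε + 1) * IL := by positivity
  have h11 : 0 ≤ C1 * IK := by positivity
  have h12 : 0 ≤ ε * ID := mul_nonneg hε.le hd
  have h13 : 0 ≤ ε * (κ 0 ^ 8 * near δ V) := mul_nonneg hε.le (hN2.trans hn)
  linarith

end Vale.Agent.P264.Energy
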