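import Vale.Agent.P264.Energy.Annulus

/-!
The transport identity and the interpolation of first derivatives.
-/

namespace Vale.Agent.P264.Energy

open Set Filter MeasureTheory Topology
open scoped ContDiff

theorem drift' : DriftTarget := by
  intro j Y κ V hY hκ hV
  rcases hY.eq_or_lt with h | hY0
  · subst h; simp
  set k1 := deriv κ
  have dk : ∀ y, HasDerivAt κ (k1 y) y := fun y =>
    ((hκ.differentiable (by norm_num)) y).hasDerivAt
  set G : ℝ → ℝ := fun y => y * (κ y ^ 8 * rho j y * V y ^ 2) with hG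
  set A : ℝ → ℝ := fun y =>
    κ y ^ 8 * rho j y * V y ^ 2 * ((6 - 2 * j * y ^ 2 / (1 + y ^ 2)) / 4) with hA
  set B : ℝ → ℝ := fun y => 2 * y * κ y ^ 7 * k1 y * rho j y * V y ^ 2 with hB
  set Lh : ℝ → ℝ := fun y => κ y ^ 8 * rho j y * V y * (V y / 2 - y * D1 Y V y / 2) with hL
  have e : (∫ y in (0:ℝ)..Y, κ y ^ 8 * rho j y * V y * drift V y) = ∫ y in (0:ℝ)..Y, Lh y :=
    integral_congr_Ioo hY fun y hy => by simp only [hL, drift, deriv_eq_D1 hV hy]
  have cV := hV.continuousOn
  have cV1 := continuousOn_D1 hY0 hV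
  have ck := hκ.continuous
  have ck1 : Continuous k1 := (contDiff_infty_iff_deriv.1 hκ).2.continuous
  have cr := continuous_rho j
  have cq : Continuous (fun y : ℝ => y ^ 2 / (1 + y ^ 2)) :=
    (continuous_pow 2).div (continuous_const.add (continuous_pow 2)) fun y => by positivity
  have cA : ContinuousOn A (Icc 0 Y) := by
    have h2 : Continuous (fun y : ℝ => (6 - 2 * (j:ℝ) * y ^ 2 / (1 + y ^ 2)) / 4) := by
      simp only [mul_div_assoc]
      exact (continuous_const.sub ((continuous_const.mul continuous_const).mul cq)).div_const 4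
    exact (((ck.pow 8).mul cr).continuousOn.mul (cV.pow 2)).mul h2.continuousOn
  have cB : ContinuousOn B (Icc 0 Y) := by rw [hB]; fun_prop
  have cL : ContinuousOn Lh (Icc 0 Y) := by rw [hL]; fun_prop
  have cG : ContinuousOn G (Icc 0 Y) := by rw [hG]; fun_prop
  have h := intervalIntegral.integral_eq_sub_of_hasDerivAt_of_le (f := G)
    (f' := fun y => 4 * (A y + B y - Lh y)) hY cG (fun y hy => ?_)
    (((cA.add cB).sub cL).intervalIntegrable_of_Icc hY |>.const_mul 4)
  · rw [intervalIntegral.integral_const_mul, intervalIntegral.integral_sub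
      ((cA.intervalIntegrable_of_Icc hY).add (cB.intervalIntegrable_of_Icc hY))
      (cL.intervalIntegrable_of_Icc hY), intervalIntegral.integral_add
      (cA.intervalIntegrable_of_Icc hY) (cB.intervalIntegrable_of_Icc hY)] at h
    simp only [hG, zero_mul, sub_zero] at h
    rw [e]
    show (∫ y in (0:ℝ)..Y, Lh y) = (∫ y in (0:ℝ)..Y, A y) + (∫ y in (0:ℝ)..Y, B y)
      - Y / 4 * (κ Y ^ 8 * rho j Y * V Y ^ 2)
    linarith
  · have hd := (hasDerivAt_id y).mul ((((dk y).pow 8).mul (hasDerivAt_rho j y)).mul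
      ((hasDerivAt_D1 hV hy).pow 2))
    refine hd.congr_deriv ?_
    simp only [hA, hB, hL, Pi.mul_apply, Pi.pow_apply, rho_eq, wgt_succ, id_eq]
    have : (1 + y ^ 2) ≠ 0 := by positivity
    push_cast
    field_simp
    ring

theorem interp : InterpTarget := by
  intro j _ hj6 M G δ m R ε hδ hm hR hε
  set CB := (6 * |G| + 5 + 2 * (j:ℝ)) ^ 2 with hCB
  refine ⟨CB + 2 * R ^ 2 / (ε * m) + 1, by positivity,
    fun Y a κ V hRY ha hκ hκR hlow hV => ?_⟩
  have hY : 0 < Y := lt_of_lt_of_le (lt_of_lt_of_le hδ hR) hRY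
  rw [diss_eq hY hV]
  set η : ℝ → ℝ := fun y => κ y ^ 6 * (y ^ 5 * wgt j y) with hη
  set η1 : ℝ → ℝ := fun y => 6 * κ y ^ 5 * deriv κ y * (y ^ 5 * wgt j y)
    + κ y ^ 6 * (5 * y ^ 4 * wgt j y + y ^ 5 * (-(2 * j * y) * wgt (j + 1) y)) with hη1
  set W : ℝ → ℝ := fun y => κ y ^ 4 * rho j y * V y ^ 2 with hW
  set G' : ℝ → ℝ := fun y => η1 y * (V y * D1 Y V y)
    + η y * (D1 Y V y * D1 Y V y + V y * D2 Y V y) with hG'
  have ca := ha.smooth.continuousOn
  have cV := hV.continuousOn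
  have cV1 := continuousOn_D1 hY hV
  have cV2 := continuousOn_D2 hY hV
  have cD := continuousOn_dI j hκ ca cV2
  have ck := hκ.smooth.continuous
  have ck1 := hκ.contDiff'.continuous
  have cr := continuous_rho j
  have := continuous_wgt j
  have := continuous_wgt (j + 1)
  have cη : Continuous η := by rw [hη]; fun_prop
  have cη1 : Continuous η1 := by rw [hη1]; fun_prop
  have cW : ContinuousOn W (Icc 0 Y) := by rw [hW]; fun_prop
  have cG' : ContinuousOn G' (Icc 0 Y) := by rw [hG']; fun_prop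
  have hz : (∫ y in (0:ℝ)..Y, G' y) = 0 := by
    refine integral_deriv_eq_zero (G := fun y => η y * (V y * D1 Y V y)) hY.le (by fun_prop) cG'
      (fun y hy => ?_) (by simp [hη]) (by simp [hη, hκR Y hRY])
    have dη : HasDerivAt η (η1 y) y := by
      refine (((hκ.hasDerivAt y).pow 6).mul
        ((hasDerivAt_pow 5 y).mul (hasDerivAt_wgt j y))).congr_deriv ?_
      simp only [hη1, Pi.mul_apply, Pi.pow_apply]
      push_cast
      ring
    exact dη.mul ((hasDerivAt_D1 hV hy).mul (hasDerivAt_D2 hY hV hy))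
  have e : (∫ y in (0:ℝ)..Y, κ y ^ 6 * rho j y * (y * deriv V y) ^ 2) =
      ∫ y in (0:ℝ)..Y, η y * D1 Y V y ^ 2 :=
    integral_congr_Ioo hY.le fun y hy => by
      simp only [hη, rho_eq, deriv_eq_D1 hV hy]; ring
  rw [e]
  have hpt : ∀ y ∈ Ioo 0 Y, η y * D1 Y V y ^ 2 ≤
      2 * G' y + (ε * dI j κ a (D2 Y V) y + (CB + 2 * R ^ 2 / (ε * m) + 1) * W y) := by
    intro y hy
    have hy0 := hy.1
    have hmem := Ioo_subset_Icc_self hy
    have hr : 0 ≤ rho j y := rho_nonneg j hy0.le
    have hW0 : 0 ≤ W y := by simp only [hW]; positivity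
    have hD0 : 0 ≤ dI j κ a (D2 Y V) y := dI_nonneg j hy0.le (ha.pos y hy).le
    rcases lt_or_ge y R with hyR | hyR
    swap
    · have hk := hκR y hyR
      simp [hG', hη, hη1, hW, dI, hk]
    set B := 6 * (deriv κ y * y) + κ y * (5 - 2 * j * (y ^ 2 * (1 + y ^ 2)⁻¹)) with hB
    have he : η1 y * (V y * D1 Y V y) =
        rho j y * (y * κ y ^ 3 * D1 Y V y * B * (κ y ^ 2 * V y)) := by
      simp only [hη1, hB, rho_eq, wgt_succ]; ring
    have hBb : B ^ 2 ≤ CB * 1 := by
      have h1 : |deriv κ y * y| ≤ |G| := by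
        have h := hκ.d1 y hmem
        rw [le_div_iff₀ (by linarith)] at h
        rw [abs_mul, abs_of_pos hy0]
        nlinarith [abs_nonneg (deriv κ y), le_abs_self G]
      have h2 : y ^ 2 * (1 + y ^ 2)⁻¹ ≤ 1 := by
        rw [← div_eq_mul_inv, div_le_one (by positivity)]; linarith
      have h3 : (0:ℝ) ≤ y ^ 2 * (1 + y ^ 2)⁻¹ := by positivity
      have hj0 : (0:ℝ) ≤ j := j.cast_nonneg
      have h4 : |κ y * (5 - 2 * j * (y ^ 2 * (1 + y ^ 2)⁻¹))| ≤ 1 * (5 + 2 * (j:ℝ)) := by
        rw [abs_mul]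
        refine mul_le_mul (abs_le.2 ⟨by linarith [hκ.nonneg y], hκ.le_one y⟩) ?_ (abs_nonneg _)
          zero_le_one
        rw [abs_le]; constructor <;> nlinarith
      have h5 : |B| ≤ 6 * |G| + 5 + 2 * (j:ℝ) := by
        refine (abs_add_le _ _).trans ?_
        rw [abs_mul, show |(6:ℝ)| = 6 by norm_num]
        linarith
      rw [mul_one, hCB, ← sq_abs]
      exact pow_le_pow_left₀ (abs_nonneg _) h5 2
    have t1 : |η1 y * (V y * D1 Y V y)| ≤ η y * D1 Y V y ^ 2 / 2 + CB / 2 * W y := by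
      rw [he, abs_mul, abs_of_nonneg hr]
      refine (mul_le_mul_of_nonneg_left (amgm_sq one_pos hBb _ _) hr).trans (le_of_eq ?_)
      simp only [hη, hW, rho_eq]; ring
    have t2 : |η y * (V y * D2 Y V y)| ≤
        ε / 4 * dI j κ a (D2 Y V) y + R ^ 2 / (ε * m) * W y := by
      have e2 : η y * (V y * D2 Y V y) = rho j y * y ^ 2 * ((κ y ^ 4 * D2 Y V y) * (κ y ^ 2 * V y)) := by
        simp only [hη, rho_eq]; ring
      rw [e2, abs_mul, abs_of_nonneg (mul_nonneg hr (sq_nonneg y))]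
      refine (mul_le_mul_of_nonneg_left (amgm (show (0:ℝ) < ε * m / 4 by positivity) _ _)
        (mul_nonneg hr (sq_nonneg y))).trans ?_
      rw [mul_add]
      refine add_le_add ?_ ?_
      · have hml := hlow y ⟨hy0.le, hyR.le⟩
        calc rho j y * y ^ 2 * (ε * m / 4 * (κ y ^ 4 * D2 Y V y) ^ 2)
            = ε / 4 * (κ y ^ 8 * rho j y * ((m * y ^ 2) * D2 Y V y ^ 2)) := by ring
          _ ≤ ε / 4 * (κ y ^ 8 * rho j y * (a y * D2 Y V y ^ 2)) := by
              have := hκ.nonneg y; gcongr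
          _ = _ := by simp only [dI]
      · calc rho j y * y ^ 2 * ((κ y ^ 2 * V y) ^ 2 / (4 * (ε * m / 4)))
            = y ^ 2 / (ε * m) * W y := by simp only [hW]; field_simp
          _ ≤ R ^ 2 / (ε * m) * W y := by gcongr
    have heq : G' y = η1 y * (V y * D1 Y V y)
        + (η y * D1 Y V y ^ 2 + η y * (V y * D2 Y V y)) := by simp only [hG']; ring
    have hed : 0 ≤ ε * dI j κ a (D2 Y V) y := mul_nonneg hε.le hD0
    rw [heq, add_mul, add_mul, show 2 * R ^ 2 / (ε * m) = 2 * (R ^ 2 / (ε * m)) by ring]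
    linarith [(abs_le.1 t1).1, (abs_le.1 t2).1]
  have h := integral_le_of_Ioo hY.le (by fun_prop) (by fun_prop) hpt
  have i1 := cG'.intervalIntegrable_of_Icc (μ := volume) hY.le
  have i2 := cD.intervalIntegrable_of_Icc (μ := volume) hY.le
  have i3 := cW.intervalIntegrable_of_Icc (μ := volume) hY.le
  rw [intervalIntegral.integral_add (i1.const_mul 2) ((i2.const_mul ε).add (i3.const_mul _)),
    intervalIntegral.integral_add (i2.const_mul ε) (i3.const_mul _),
    intervalIntegral.integral_const_mul, intervalIntegral.integral_const_mul,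
    intervalIntegral.integral_const_mul, hz, mul_zero, zero_add] at h
  exact h

end Vale.Agent.P264.Energy
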