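import Vale.Agent.P264.Energy.Coercive
import Vale.Agent.P264.Energy.Forcing
import Vale.Agent.P264.Energy.Interp
import Vale.Agent.P264.Energy.Cell

/-!
The proved static energy statements: `coercive`, `forcing`, `interp`, `drift'` and `cell`.
-/
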