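import Vale.Agent.P264.Energy.Parts

/-!
The first derivative away from the origin is controlled by the dissipation and the loss term, and
the cross terms of the pairing are bounded pointwise.
-/

namespace Vale.Agent.P264.Energy

open Set Filter MeasureTheory Topology
open scoped ContDiff

/-- Integrand of the dissipation. -/
noncomputable def dI (j : ℕ) (κ a W : ℝ → ℝ) (y : ℝ) : ℝ :=
  κ y ^ 8 * rho j y * (a y * W y ^ 2)

/-- Integrand of the loss term. -/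
noncomputable def lI (j : ℕ) (κ V : ℝ → ℝ) (y : ℝ) : ℝ := κ y ^ 4 * rho (j + 1) y * V y ^ 2

/-- The auxiliary weight of `V'` away from the origin. -/
noncomputable def qW (j : ℕ) (δ : ℝ) (κ a : ℝ → ℝ) (y : ℝ) : ℝ :=
  step (δ / 4) (δ / 2) y ^ 2 * κ y ^ 6 * rho (j + 1) y * a y

lemma diss_eq {j : ℕ} {κ : ℝ → ℝ} {Y : ℝ} {a V : ℝ → ℝ} (hY : 0 < Y)
    (hV : ContDiffOn ℝ ∞ V (Icc 0 Y)) :
    diss j κ Y a V = ∫ y in (0:ℝ)..Y, dI j κ a (D2 Y V) y :=
  integral_congr_Ioo hY.le fun y hy => by rw [deriv2_eq_D2 hY hV hy, dI]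

lemma loss_eq (j : ℕ) (κ : ℝ → ℝ) (Y : ℝ) (V : ℝ → ℝ) :
    loss j κ Y V = ∫ y in (0:ℝ)..Y, lI j κ V y := by
  unfold loss
  refine intervalIntegral.integral_congr fun y _ => ?_
  simp only [lI, rho_succ]
  ring

section

variable {Y M G δ : ℝ} {a κ V W : ℝ → ℝ} (j : ℕ)

lemma lI_nonneg {y : ℝ} (hy : 0 ≤ y) : 0 ≤ lI j κ V y := by
  have := rho_nonneg (j + 1) hy; unfold lI; positivity

lemma dI_nonneg {y : ℝ} (hy : 0 ≤ y) (ha : 0 ≤ a y) : 0 ≤ dI j κ a W y := by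
  have := rho_nonneg j hy; unfold dI; positivity

lemma continuousOn_dI (hκ : Cut Y G δ κ) (ha : ContinuousOn a (Icc 0 Y))
    (hW : ContinuousOn W (Icc 0 Y)) : ContinuousOn (dI j κ a W) (Icc 0 Y) := by
  have := continuous_rho j; have := hκ.smooth.continuous
  unfold dI; fun_prop

lemma continuousOn_lI (hκ : Cut Y G δ κ) (hV : ContinuousOn V (Icc 0 Y)) :
    ContinuousOn (lI j κ V) (Icc 0 Y) := by
  have := continuous_rho (j + 1); have := hκ.smooth.continuous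
  unfold lI; fun_prop

lemma continuousOn_qW (hκ : Cut Y G δ κ) (ha : ContinuousOn a (Icc 0 Y)) :
    ContinuousOn (qW j δ κ a) (Icc 0 Y) := by
  have := continuous_rho (j + 1); have := hκ.smooth.continuous
  have := (contDiff_step (δ / 4) (δ / 2)).continuous
  unfold qW; fun_prop

end

/-- Derivative of `qW`. -/
noncomputable def qW1 (j : ℕ) (δ Y : ℝ) (κ a : ℝ → ℝ) (y : ℝ) : ℝ :=
  (2 * step (δ / 4) (δ / 2) y * deriv (step (δ / 4) (δ / 2)) y * κ y ^ 6
    + step (δ / 4) (δ / 2) y ^ 2 * (6 * κ y ^ 5 * deriv κ y)) * rho (j + 1) y * a y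
  + step (δ / 4) (δ / 2) y ^ 2 * κ y ^ 6 * ((3 * y ^ 2 * wgt (j + 1) y
      + y ^ 3 * (-(2 * ((j + 1 : ℕ) : ℝ) * y) * wgt (j + 1 + 1) y)) * a y
      + rho (j + 1) y * D1 Y a y)

lemma continuousOn_qW1 {Y G δ : ℝ} {a κ : ℝ → ℝ} (j : ℕ) (hκ : Cut Y G δ κ)
    (ha : ContinuousOn a (Icc 0 Y)) (ha1 : ContinuousOn (D1 Y a) (Icc 0 Y)) :
    ContinuousOn (qW1 j δ Y κ a) (Icc 0 Y) := by
  have := (contDiff_step (δ / 4) (δ / 2)).continuous
  have := continuous_step' (δ / 4) (δ / 2)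
  have := hκ.smooth.continuous; have := hκ.contDiff'.continuous
  have := continuous_rho (j + 1); have := continuous_wgt (j + 1)
  have := continuous_wgt (j + 1 + 1)
  unfold qW1; fun_prop

lemma hasDerivAt_qW {Y M G δ : ℝ} {a κ : ℝ → ℝ} (j : ℕ) (ha : Coef Y M δ a)
    (hκ : Cut Y G δ κ) {y : ℝ} (hy : y ∈ Ioo 0 Y) :
    HasDerivAt (qW j δ κ a) (qW1 j δ Y κ a y) y := by
  refine (((((hasDerivAt_step (δ / 4) (δ / 2) y).pow 2).mul ((hκ.hasDerivAt y).pow 6)).mul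
    (hasDerivAt_rho (j + 1) y)).mul (hasDerivAt_D1 ha.smooth hy)).congr_deriv ?_
  simp only [qW1, Pi.mul_apply, Pi.pow_apply]
  push_cast
  ring

lemma four_sq (a b c d : ℝ) :
    (2 * a + 6 * b + c + d) ^ 2 ≤ 4 * (4 * a ^ 2 + 36 * b ^ 2 + c ^ 2 + d ^ 2) := by
  nlinarith [sq_nonneg (2 * a - 6 * b), sq_nonneg (2 * a - c), sq_nonneg (2 * a - d),
    sq_nonneg (6 * b - c), sq_nonneg (6 * b - d), sq_nonneg (c - d)]

/-- `qW'^2` is controlled by `qW` times the loss weight, in factored form. -/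
lemma qW1_factor (j : ℕ) (M G δ Bs : ℝ) (hδ : 0 < δ)
    (hstep : ∀ y, |deriv (step (δ / 4) (δ / 2)) y| ≤ Bs) {Y : ℝ} {a κ : ℝ → ℝ}
    (hM : 0 ≤ M) (ha : Coef Y M δ a) (hκ : Cut Y G δ κ) {y : ℝ} (hy : y ∈ Ioo 0 Y) :
    ∃ B : ℝ, qW1 j δ Y κ a y = step (δ / 4) (δ / 2) y * κ y ^ 5 * rho (j + 1) y * B ∧
      B ^ 2 ≤ 4 * (4 * (Bs ^ 2 * (M * δ ^ 2)) + 36 * (M * G ^ 2) + M * (5 + 2 * j) ^ 2 + M)
        * a y := by
  have hy0 : 0 < y := hy.1
  have hmem := Ioo_subset_Icc_self hy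
  have hap := (ha.pos y hy).le
  have hcd : δ / 4 < δ / 2 := by linarith
  have hk0 := hκ.nonneg y
  have hk2 : κ y ^ 2 ≤ 1 := pow_le_one₀ hk0 (hκ.le_one y)
  have hp2 : step (δ / 4) (δ / 2) y ^ 2 ≤ 1 :=
    pow_le_one₀ (step_nonneg _ _ _) (step_le_one _ _ _)
  have hA := ha.upper y hmem
  set p := step (δ / 4) (δ / 2) y with hp
  set q := 3 * y⁻¹ - 2 * ((j + 1 : ℕ) : ℝ) * (y * (1 + y ^ 2)⁻¹) with hq
  refine ⟨2 * (deriv (step (δ / 4) (δ / 2)) y * κ y * a y) + 6 * (p * deriv κ y * a y)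
    + p * κ y * a y * q + p * κ y * D1 Y a y, ?_, ?_⟩
  · have := hy0.ne'
    simp only [qW1, hq, hp, rho_eq, wgt_succ]
    field_simp
    ring
  refine (four_sq _ _ _ _).trans ?_
  have b1 : (deriv (step (δ / 4) (δ / 2)) y * κ y * a y) ^ 2 ≤ Bs ^ 2 * (M * δ ^ 2) * a y := by
    by_cases hyI : y ∈ Icc (δ / 4) (δ / 2)
    · have h1 : deriv (step (δ / 4) (δ / 2)) y ^ 2 ≤ Bs ^ 2 := by
        rw [← sq_abs]; exact pow_le_pow_left₀ (abs_nonneg _) (hstep y) 2
      have h2 : a y ≤ M * δ ^ 2 := hA.trans (by gcongr; linarith [hyI.2])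
      calc (deriv (step (δ / 4) (δ / 2)) y * κ y * a y) ^ 2
          = deriv (step (δ / 4) (δ / 2)) y ^ 2 * a y * (κ y ^ 2 * a y) := by ring
        _ ≤ Bs ^ 2 * (M * δ ^ 2) * (1 * a y) := by gcongr
        _ = _ := by ring
    · rw [step'_eq_zero hcd hyI]
      simp only [zero_mul, ne_eq, OfNat.ofNat_ne_zero, not_false_eq_true, zero_pow]
      positivity
  have b2 : (p * deriv κ y * a y) ^ 2 ≤ M * G ^ 2 * a y := by
    have h1 : (deriv κ y * y) ^ 2 ≤ G ^ 2 := by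
      have h := hκ.d1 y hmem
      rw [le_div_iff₀ (by linarith)] at h
      rw [← sq_abs, abs_mul, abs_of_pos hy0]
      refine pow_le_pow_left₀ (by positivity) ?_ 2
      nlinarith [abs_nonneg (deriv κ y)]
    calc (p * deriv κ y * a y) ^ 2 = p ^ 2 * (deriv κ y ^ 2 * a y) * a y := by ring
      _ ≤ 1 * (deriv κ y ^ 2 * (M * y ^ 2)) * a y := by gcongr
      _ = M * (deriv κ y * y) ^ 2 * a y := by ring
      _ ≤ M * G ^ 2 * a y := by gcongr
  have b3 : (p * κ y * a y * q) ^ 2 ≤ M * (5 + 2 * j) ^ 2 * a y := by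
    have h1 : (q * y) ^ 2 ≤ (5 + 2 * (j:ℝ)) ^ 2 := by
      have e : q * y = 3 - 2 * (((j:ℝ) + 1) * (y ^ 2 * (1 + y ^ 2)⁻¹)) := by
        simp only [hq]; push_cast; field_simp
      have h2 : y ^ 2 * (1 + y ^ 2)⁻¹ ≤ 1 := by
        rw [← div_eq_mul_inv, div_le_one (by positivity)]; linarith
      have h3 : ((j:ℝ) + 1) * (y ^ 2 * (1 + y ^ 2)⁻¹) ≤ (j:ℝ) + 1 :=
        mul_le_of_le_one_right (by positivity) h2
      have h4 : 0 ≤ ((j:ℝ) + 1) * (y ^ 2 * (1 + y ^ 2)⁻¹) := by positivity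
      rw [e]
      exact sq_le_sq' (by linarith) (by linarith [(j.cast_nonneg : (0:ℝ) ≤ j)])
    calc (p * κ y * a y * q) ^ 2 = p ^ 2 * κ y ^ 2 * (q ^ 2 * a y) * a y := by ring
      _ ≤ 1 * 1 * (q ^ 2 * (M * y ^ 2)) * a y := by gcongr
      _ = M * (q * y) ^ 2 * a y := by ring
      _ ≤ M * (5 + 2 * j) ^ 2 * a y := by gcongr
  have b4 : (p * κ y * D1 Y a y) ^ 2 ≤ M * a y := by
    have h := ha.slope y hy
    rw [deriv_eq_D1 ha.smooth hy] at h
    calc (p * κ y * D1 Y a y) ^ 2 = p ^ 2 * κ y ^ 2 * D1 Y a y ^ 2 := by ring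
      _ ≤ 1 * 1 * (M * a y) := by gcongr
      _ = _ := by ring
  linarith

/-- The second cross term of the annulus identity. -/
lemma qW_second (j : ℕ) (M δ ε : ℝ) (hε : 0 < ε) (hM : 0 ≤ M) {Y : ℝ} {a κ V W : ℝ → ℝ}
    (ha : Coef Y M δ a) {y : ℝ} (hy : y ∈ Ioo 0 Y) :
    |qW j δ κ a y * (V y * W y)| ≤ ε / 4 * dI j κ a W y + M / ε * lI j κ V y := by
  have hy0 : 0 < y := hy.1
  have hap := (ha.pos y hy).le
  set p := step (δ / 4) (δ / 2) y with hp
  have hp4 : p ^ 4 ≤ 1 := pow_le_one₀ (step_nonneg _ _ _) (step_le_one _ _ _)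
  have h := amgm (show (0:ℝ) < ε / 4 by positivity) (κ y ^ 4 * W y)
    (p ^ 2 * κ y ^ 2 * (1 + y ^ 2)⁻¹ * V y)
  have hra : 0 ≤ rho j y * a y := mul_nonneg (rho_nonneg j hy0.le) hap
  have : |qW j δ κ a y * (V y * W y)| =
      rho j y * a y * |κ y ^ 4 * W y * (p ^ 2 * κ y ^ 2 * (1 + y ^ 2)⁻¹ * V y)| := by
    have e : qW j δ κ a y * (V y * W y) =
        rho j y * a y * (κ y ^ 4 * W y * (p ^ 2 * κ y ^ 2 * (1 + y ^ 2)⁻¹ * V y)) := by
      simp only [qW, rho_succ, hp]; ring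
    rw [e, abs_mul, abs_of_nonneg hra]
  rw [this]
  refine (mul_le_mul_of_nonneg_left h hra).trans ?_
  have hx : a y * (1 + y ^ 2)⁻¹ ≤ M := by
    rw [← div_eq_mul_inv, div_le_iff₀ (by positivity)]
    nlinarith [ha.upper y (Ioo_subset_Icc_self hy)]
  have e : rho j y * a y * ((p ^ 2 * κ y ^ 2 * (1 + y ^ 2)⁻¹ * V y) ^ 2 / (4 * (ε / 4))) =
      p ^ 4 * (a y * (1 + y ^ 2)⁻¹) / ε * lI j κ V y := by
    simp only [lI, rho_succ]; field_simp
  have e3 : rho j y * a y * (ε / 4 * (κ y ^ 4 * W y) ^ 2) = ε / 4 * dI j κ a W y := by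
    simp only [dI]; ring
  rw [mul_add, e, e3]
  gcongr
  · exact lI_nonneg j hy0.le
  · calc p ^ 4 * (a y * (1 + y ^ 2)⁻¹) ≤ 1 * M := by gcongr
      _ = M := one_mul _

/-- `∫ qW V'^2 ≤ ε diss + C loss`. -/
lemma annulus (j : ℕ) (M G δ : ℝ) (hδ : 0 < δ) (ε : ℝ) (hε : 0 < ε) :
    ∃ C : ℝ, 0 < C ∧ ∀ (Y : ℝ) (a κ V : ℝ → ℝ), δ ≤ Y → Coef Y M δ a → Cut Y G δ κ →
      (κ Y = 0 ∨ a Y = 0) → ContDiffOn ℝ ∞ V (Icc 0 Y) →
      (∫ y in (0:ℝ)..Y, qW j δ κ a y * D1 Y V y ^ 2) ≤ ε * diss j κ Y a V + C * loss j κ Y V := by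
  have hcd : δ / 4 < δ / 2 := by linarith
  obtain ⟨Bs, hBs, hstep⟩ := exists_step_bound _ _ hcd
  set M' := max M 0
  have hM0 : 0 ≤ M' := le_max_right _ _
  set CB := 4 * (4 * (Bs ^ 2 * (M' * δ ^ 2)) + 36 * (M' * G ^ 2) + M' * (5 + 2 * j) ^ 2 + M')
    with hCB
  refine ⟨CB + 2 * M' / ε + 1, by positivity, fun Y a κ V hδY ha₀ hκ hedge hV => ?_⟩
  have hY : 0 < Y := lt_of_lt_of_le hδ hδY
  have ha : Coef Y M' δ a :=
    { smooth := ha₀.smooth
      pos := ha₀.pos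
      near0 := ha₀.near0
      upper := fun y hy => (ha₀.upper y hy).trans (by gcongr; exact le_max_left _ _)
      slope := fun y hy => (ha₀.slope y hy).trans
        (mul_le_mul_of_nonneg_right (le_max_left _ _) (ha₀.pos y hy).le) }
  rw [diss_eq hY hV, loss_eq]
  set Gf : ℝ → ℝ := fun y => qW j δ κ a y * (V y * D1 Y V y) with hGf
  set G' : ℝ → ℝ := fun y => qW1 j δ Y κ a y * (V y * D1 Y V y)
    + qW j δ κ a y * (D1 Y V y * D1 Y V y + V y * D2 Y V y) with hG'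
  have ca := ha.smooth.continuousOn
  have cV := hV.continuousOn
  have cV1 := continuousOn_D1 hY hV
  have cV2 := continuousOn_D2 hY hV
  have cq := continuousOn_qW (δ := δ) j hκ ca
  have cq1 := continuousOn_qW1 (δ := δ) j hκ ca (continuousOn_D1 hY ha.smooth)
  have cL := continuousOn_lI j hκ cV
  have cD := continuousOn_dI j hκ ca cV2
  have cG' : ContinuousOn G' (Icc 0 Y) := by rw [hG']; fun_prop
  have hz : (∫ y in (0:ℝ)..Y, G' y) = 0 := by
    refine integral_deriv_eq_zero (G := Gf) hY.le (by rw [hGf]; fun_prop) cG' ?_ ?_ ?_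
    · intro y hy
      exact (hasDerivAt_qW j ha hκ hy).mul
        ((hasDerivAt_D1 hV hy).mul (hasDerivAt_D2 hY hV hy))
    · simp [hGf, qW, step_eq_zero hcd (show (0:ℝ) ≤ δ / 4 by linarith)]
    · rcases hedge with h | h <;> simp [hGf, qW, h]
  have hpt : ∀ y ∈ Ioo 0 Y, qW j δ κ a y * D1 Y V y ^ 2 ≤
      2 * G' y + (ε * dI j κ a (D2 Y V) y + (CB + 2 * M' / ε + 1) * lI j κ V y) := by
    intro y hy
    obtain ⟨B, hBe, hB⟩ := qW1_factor j M' G δ Bs hδ (fun z => (hstep z).1) hM0 ha hκ hy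
    rw [← hCB] at hB
    have hap := ha.pos y hy
    have hr : 0 ≤ rho (j + 1) y := rho_nonneg _ hy.1.le
    have h := amgm_sq hap hB (step (δ / 4) (δ / 2) y * κ y ^ 3 * D1 Y V y) (κ y ^ 2 * V y)
    have t1 : |qW1 j δ Y κ a y * (V y * D1 Y V y)| ≤
        qW j δ κ a y * D1 Y V y ^ 2 / 2 + CB / 2 * lI j κ V y := by
      have e : qW1 j δ Y κ a y * (V y * D1 Y V y) = rho (j + 1) y
          * (step (δ / 4) (δ / 2) y * κ y ^ 3 * D1 Y V y * B * (κ y ^ 2 * V y)) := by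
        rw [hBe]; ring
      rw [e, abs_mul, abs_of_nonneg hr]
      refine (mul_le_mul_of_nonneg_left h hr).trans (le_of_eq ?_)
      simp only [qW, lI]
      ring
    have t2 := qW_second (κ := κ) (V := V) (W := D2 Y V) j M' δ ε hε hM0 ha hy
    have hd := mul_nonneg hε.le (dI_nonneg (κ := κ) (W := D2 Y V) j hy.1.le hap.le)
    have hl : 0 ≤ lI j κ V y := lI_nonneg j hy.1.le
    have heq : G' y = qW1 j δ Y κ a y * (V y * D1 Y V y)
        + (qW j δ κ a y * D1 Y V y ^ 2 + qW j δ κ a y * (V y * D2 Y V y)) := by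
      simp only [hG']; ring
    rw [heq, add_mul, add_mul, show 2 * M' / ε = 2 * (M' / ε) by ring]
    linarith [(abs_le.1 t1).1, (abs_le.1 t2).1]
  have h := integral_le_of_Ioo hY.le (by fun_prop) (by fun_prop) hpt
  have i1 := cG'.intervalIntegrable_of_Icc (μ := volume) hY.le
  have i2 := cD.intervalIntegrable_of_Icc (μ := volume) hY.le
  have i3 := cL.intervalIntegrable_of_Icc (μ := volume) hY.le
  rw [intervalIntegral.integral_add (i1.const_mul 2) ((i2.const_mul ε).add (i3.const_mul _)),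
    intervalIntegral.integral_add (i2.const_mul ε) (i3.const_mul _),
    intervalIntegral.integral_const_mul, intervalIntegral.integral_const_mul,
    intervalIntegral.integral_const_mul, hz] at h
  linarith

/-- Pointwise bounds on the cross terms away from the origin. -/
lemma cross (j : ℕ) (M G δ : ℝ) (hδ : 0 < δ) :
    ∃ C : ℝ, 0 < C ∧ ∀ (Y : ℝ) (a κ V : ℝ → ℝ), Coef Y M δ a → Cut Y G δ κ →
      ∀ y ∈ Ioo 0 Y, δ / 2 ≤ y → ∀ e : ℝ, 0 < e → ∀ (v1 : ℝ) (Z : ℝ → ℝ),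
        |a y * Z y * pA j κ y * v1| ≤ e * dI j κ a Z y + C / e * (qW j δ κ a y * v1 ^ 2) ∧
        |a y * Z y * pB j κ y * V y| ≤ e * dI j κ a Z y + C / e * lI j κ V y := by
  set M' := max M 1 with hM'
  have hM1 : (1:ℝ) ≤ M' := le_max_right _ _
  have hM0 : 0 < M' := by linarith
  set CA := 16 * G + 8 * j + 8 * (1 + 2 / δ)
  set CP := 56 * G ^ 2 + 8 * G + 64 * j * G + 4 * j + 16 * j * (j + 1)
        + 64 * (1 + 2 / δ) * G + 32 * j * (1 + 2 / δ) + 20 * (1 + 2 / δ) ^ 2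
  refine ⟨CA ^ 2 / 4 + M' * CP ^ 2 / 4 + 1, by positivity, fun Y a κ V ha hκ y hy hyδ e he v1 Z => ?_⟩
  obtain ⟨hA, hB⟩ := coef_bounds hκ j hδ y hyδ hy.2.le
  have hy0 : 0 < y := hy.1
  have hap := (ha.pos y hy).le
  have hA2 : a y ≤ M' * y ^ 2 :=
    (ha.upper y (Ioo_subset_Icc_self hy)).trans (by gcongr; exact le_max_left _ _)
  set u := (1 + y)⁻¹
  set k := κ y
  have hk : 0 ≤ k := hκ.nonneg y
  have hr : 0 ≤ rho j y := rho_nonneg j hy0.le
  have hux : u ^ 2 ≤ (1 + y ^ 2)⁻¹ := uinv_sq_le hy0.le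
  have hu : 0 ≤ u := by positivity
  have hra : 0 ≤ rho j y * a y := mul_nonneg hr hap
  have he3 : ∀ c : ℝ, rho j y * a y * (e * (k ^ 4 * Z y) ^ 2 + c) =
      e * dI j κ a Z y + rho j y * a y * c := fun c => by simp only [dI, k]; ring
  constructor
  · calc |a y * Z y * pA j κ y * v1| = |pA j κ y| * |a y * Z y * v1| := by
          rw [← abs_mul]; ring_nf
      _ ≤ CA * (k ^ 7 * rho j y * u) * |a y * Z y * v1| := by gcongr
      _ = rho j y * a y * |k ^ 4 * Z y * (CA * (k ^ 3 * u * v1))| := by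
          have hCA : 0 ≤ CA := by
            have hp : 0 ≤ G := by
              have := (abs_nonneg _).trans (hκ.d1 y (Ioo_subset_Icc_self hy))
              rw [le_div_iff₀ (by linarith)] at this; linarith
            positivity
          simp only [abs_mul, abs_pow, abs_of_nonneg hap, abs_of_nonneg hu, abs_of_nonneg hk,
            abs_of_nonneg hCA]
          ring
      _ ≤ rho j y * a y * (e * (k ^ 4 * Z y) ^ 2 + (CA * (k ^ 3 * u * v1)) ^ 2 / (4 * e)) :=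
          mul_le_mul_of_nonneg_left (amgm he _ _) hra
      _ = e * dI j κ a Z y + CA ^ 2 / 4 / e * (k ^ 6 * (rho j y * u ^ 2) * a y * v1 ^ 2) := by
          rw [he3]; field_simp
      _ ≤ e * dI j κ a Z y + (CA ^ 2 / 4 + M' * CP ^ 2 / 4 + 1) / e
            * (qW j δ κ a y * v1 ^ 2) := by
          gcongr
          · exact le_add_of_le_of_nonneg (le_add_of_nonneg_right (by positivity)) zero_le_one
          · rw [qW, step_eq_one (by linarith) hyδ, one_pow, one_mul, rho_succ]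
            gcongr
  · calc |a y * Z y * pB j κ y * V y| = |pB j κ y| * |a y * Z y * V y| := by
          rw [← abs_mul]; ring_nf
      _ ≤ CP * (k ^ 6 * rho j y * u ^ 2) * |a y * Z y * V y| := by gcongr
      _ = rho j y * a y * |k ^ 4 * Z y * (CP * (k ^ 2 * u ^ 2 * V y))| := by
          have hCP : 0 ≤ CP := by
            have hp : 0 ≤ G := by
              have := (abs_nonneg _).trans (hκ.d1 y (Ioo_subset_Icc_self hy))
              rw [le_div_iff₀ (by linarith)] at this; linarith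
            positivity
          simp only [abs_mul, abs_pow, abs_of_nonneg hap, abs_of_nonneg hu, abs_of_nonneg hk,
            abs_of_nonneg hCP]
          ring
      _ ≤ rho j y * a y * (e * (k ^ 4 * Z y) ^ 2 + (CP * (k ^ 2 * u ^ 2 * V y)) ^ 2 / (4 * e)) :=
          mul_le_mul_of_nonneg_left (amgm he _ _) hra
      _ = e * dI j κ a Z y + CP ^ 2 / 4 / e * ((a y * u ^ 2) * u ^ 2 * (k ^ 4 * rho j y * V y ^ 2)) := by
          rw [he3]; field_simp
      _ ≤ e * dI j κ a Z y + CP ^ 2 / 4 / e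
            * (M' * (1 + y ^ 2)⁻¹ * (k ^ 4 * rho j y * V y ^ 2)) := by
          have : a y * u ^ 2 ≤ M' := by
            refine (mul_le_mul hA2 hux (by positivity) (by positivity)).trans ?_
            rw [← div_eq_mul_inv, div_le_iff₀ (by positivity)]
            nlinarith
          gcongr
      _ = e * dI j κ a Z y + M' * CP ^ 2 / 4 / e * lI j κ V y := by
          simp only [lI, rho_succ, k]; ring
      _ ≤ _ := by
          have := lI_nonneg (κ := κ) (V := V) j hy0.le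
          gcongr
          linarith [show 0 ≤ CA ^ 2 / 4 by positivity]

end Vale.Agent.P264.Energy
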