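import Vale.Agent.P264.Common

/-!
Frozen statements of the static energy module. All functions live on `[0, Y]`, smooth up to both
ends; integrands only see the interior, so plain `deriv` is used.
-/

namespace Vale.Agent.P264.Energy

open Set
open scoped ContDiff

/-- Coercivity of the dissipation form. -/
def CoerciveTarget : Prop :=
  ∃ δ₀ : ℝ, 0 < δ₀ ∧ ∀ j : ℕ, 4 ≤ j → j ≤ 6 → ∀ M G δ : ℝ, 0 < δ → δ ≤ δ₀ →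
    ∃ c C : ℝ, 0 < c ∧ 0 < C ∧ ∀ (Y : ℝ) (a κ V : ℝ → ℝ), δ ≤ Y →
      Coef Y M δ a → Cut Y G δ κ → Edge Y κ a → ContDiffOn ℝ ∞ V (Icc 0 Y) →
      c * (diss j κ Y a V + κ 0 ^ 8 * near δ V) - C * loss j κ Y V
        ≤ ∫ y in (0:ℝ)..Y, κ y ^ 8 * rho j y * V y
            * dst (fun z => a z * deriv (deriv V) z) y

/-- Pairing with a forcing `dst G`, where `G = a * K`. -/
def ForcingTarget : Prop :=
  ∃ δ₀ : ℝ, 0 < δ₀ ∧ ∀ j : ℕ, 4 ≤ j → j ≤ 6 → ∀ M G δ : ℝ, 0 < δ → δ ≤ δ₀ →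
    ∀ ε : ℝ, 0 < ε → ∃ C : ℝ, 0 < C ∧ ∀ (Y : ℝ) (a κ V F K : ℝ → ℝ), δ ≤ Y →
      Coef Y M δ a → Cut Y G δ κ → Edge Y κ a → ContDiffOn ℝ ∞ V (Icc 0 Y) →
      ContDiffOn ℝ ∞ F (Icc 0 Y) → ContinuousOn K (Icc 0 Y) →
      (∀ y ∈ Icc 0 Y, F y = a y * K y) →
      |∫ y in (0:ℝ)..Y, κ y ^ 8 * rho j y * V y * dst F y|
        ≤ ε * (diss j κ Y a V + κ 0 ^ 8 * near δ V)
          + C * (loss j κ Y V + fsq j κ Y a K)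

/-- First derivatives where `a` is bounded below. -/
def InterpTarget : Prop :=
  ∀ j : ℕ, 4 ≤ j → j ≤ 6 → ∀ M G δ m R ε : ℝ, 0 < δ → 0 < m → δ ≤ R → 0 < ε →
    ∃ C : ℝ, 0 < C ∧ ∀ (Y : ℝ) (a κ V : ℝ → ℝ), R ≤ Y →
      Coef Y M δ a → Cut Y G δ κ → (∀ y, R ≤ y → κ y = 0) →
      (∀ y ∈ Icc 0 R, m * y ^ 2 ≤ a y) → ContDiffOn ℝ ∞ V (Icc 0 Y) →
      (∫ y in (0:ℝ)..Y, κ y ^ 6 * rho j y * (y * deriv V y) ^ 2)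
        ≤ ε * diss j κ Y a V + C * wsq j 4 κ Y V

/-- The transport identity (`Y` is the moving end of the rescaled interval). -/
def DriftTarget : Prop :=
  ∀ (j : ℕ) (Y : ℝ) (κ V : ℝ → ℝ), 0 ≤ Y → ContDiff ℝ ∞ κ → ContDiffOn ℝ ∞ V (Icc 0 Y) →
    (∫ y in (0:ℝ)..Y, κ y ^ 8 * rho j y * V y * drift V y)
      = (∫ y in (0:ℝ)..Y, κ y ^ 8 * rho j y * V y ^ 2
            * ((6 - 2 * j * y ^ 2 / (1 + y ^ 2)) / 4))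
        + (∫ y in (0:ℝ)..Y, 2 * y * κ y ^ 7 * deriv κ y * rho j y * V y ^ 2)
        - Y / 4 * (κ Y ^ 8 * rho j Y * V Y ^ 2)

/-- Compactness on a bounded interval: finitely many smooth moments. -/
def CellTarget : Prop :=
  ∀ j : ℕ, 4 ≤ j → j ≤ 6 → ∀ δ m R η : ℝ, 0 < δ → δ ≤ R → 0 < m → 0 < η →
    ∃ (N : ℕ) (ψ : Fin N → ℝ → ℝ) (C : ℝ), 0 < C ∧
      (∀ i, ContDiff ℝ ∞ (ψ i) ∧ ∃ a b : ℝ, 0 < a ∧ a ≤ b ∧ b ≤ 2 * R ∧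
        ∀ y, y ∉ Icc a b → ψ i y = 0) ∧
      ∀ (Y : ℝ) (a V : ℝ → ℝ), 2 * R ≤ Y → ContDiffOn ℝ ∞ V (Icc 0 Y) →
        ContinuousOn a (Icc 0 Y) → (∀ y ∈ Icc 0 Y, 0 ≤ a y) →
        (∀ y ∈ Icc 0 (2 * R), m * y ^ 2 ≤ a y) →
        (∫ y in (0:ℝ)..R, rho j y * V y ^ 2)
          ≤ η * (diss j (fun _ => 1) Y a V + near δ V + wsq j 0 (fun _ => 1) Y V)
            + C * ∑ i, (∫ y in (0:ℝ)..Y, ψ i y * V y) ^ 2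

end Vale.Agent.P264.Energy
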