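import Mathlib.MeasureTheory.Integral.IntervalIntegral.FundThmCalculus
import Mathlib.Analysis.SpecialFunctions.SmoothTransition
import Vale.Agent.P264.Energy.Targets

/-!
Tools for the static energy estimates: derivatives up to the ends of `[0, Y]`, parts, weights,
cutoffs and elementary inequalities.
-/

namespace Vale.Agent.P264.Energy

open Set Filter MeasureTheory Topology
open scoped ContDiff

/-! ### Derivatives up to the boundary -/

/-- First derivative up to the ends of `[0, Y]`. -/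
noncomputable def D1 (Y : ℝ) (f : ℝ → ℝ) : ℝ → ℝ := derivWithin f (Icc 0 Y)

/-- Second derivative up to the ends of `[0, Y]`. -/
noncomputable def D2 (Y : ℝ) (f : ℝ → ℝ) : ℝ → ℝ := D1 Y (D1 Y f)

lemma contDiffOn_D1 {Y : ℝ} (hY : 0 < Y) {f : ℝ → ℝ} (hf : ContDiffOn ℝ ∞ f (Icc 0 Y)) :
    ContDiffOn ℝ ∞ (D1 Y f) (Icc 0 Y) :=
  ((contDiffOn_infty_iff_derivWithin (uniqueDiffOn_Icc hY)).1 hf).2

lemma hasDerivAt_D1 {Y : ℝ} {f : ℝ → ℝ} (hf : ContDiffOn ℝ ∞ f (Icc 0 Y))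
    {y : ℝ} (hy : y ∈ Ioo 0 Y) : HasDerivAt f (D1 Y f y) y :=
  ((hf.differentiableOn (by norm_num)) y (Ioo_subset_Icc_self hy)).hasDerivWithinAt.hasDerivAt
    (Icc_mem_nhds hy.1 hy.2)

lemma deriv_eq_D1 {Y : ℝ} {f : ℝ → ℝ} (hf : ContDiffOn ℝ ∞ f (Icc 0 Y))
    {y : ℝ} (hy : y ∈ Ioo 0 Y) : deriv f y = D1 Y f y :=
  (hasDerivAt_D1 hf hy).deriv

lemma hasDerivAt_D2 {Y : ℝ} {f : ℝ → ℝ} (hY : 0 < Y) (hf : ContDiffOn ℝ ∞ f (Icc 0 Y))
    {y : ℝ} (hy : y ∈ Ioo 0 Y) : HasDerivAt (D1 Y f) (D2 Y f y) y :=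
  hasDerivAt_D1 (contDiffOn_D1 hY hf) hy

lemma deriv2_eq_D2 {Y : ℝ} {f : ℝ → ℝ} (hY : 0 < Y) (hf : ContDiffOn ℝ ∞ f (Icc 0 Y))
    {y : ℝ} (hy : y ∈ Ioo 0 Y) : deriv (deriv f) y = D2 Y f y := by
  have h : deriv f =ᶠ[𝓝 y] D1 Y f :=
    eventually_of_mem (Ioo_mem_nhds hy.1 hy.2) fun z hz => deriv_eq_D1 hf hz
  rw [h.deriv_eq]
  exact (hasDerivAt_D2 hY hf hy).deriv

lemma continuousOn_D1 {Y : ℝ} (hY : 0 < Y) {f : ℝ → ℝ} (hf : ContDiffOn ℝ ∞ f (Icc 0 Y)) :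
    ContinuousOn (D1 Y f) (Icc 0 Y) :=
  (contDiffOn_D1 hY hf).continuousOn

lemma continuousOn_D2 {Y : ℝ} (hY : 0 < Y) {f : ℝ → ℝ} (hf : ContDiffOn ℝ ∞ f (Icc 0 Y)) :
    ContinuousOn (D2 Y f) (Icc 0 Y) :=
  (contDiffOn_D1 hY (contDiffOn_D1 hY hf)).continuousOn

/-! ### Integrals -/

lemma integral_congr_Ioo {a b : ℝ} (hab : a ≤ b) {f g : ℝ → ℝ}
    (h : ∀ x ∈ Ioo a b, f x = g x) : (∫ x in a..b, f x) = ∫ x in a..b, g x := by
  rw [intervalIntegral.integral_of_le hab, intervalIntegral.integral_of_le hab,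
    integral_Ioc_eq_integral_Ioo, integral_Ioc_eq_integral_Ioo]
  exact setIntegral_congr_fun measurableSet_Ioo h

lemma integral_le_of_Ioo {a b : ℝ} (hab : a ≤ b) {f g : ℝ → ℝ} (hf : ContinuousOn f (Icc a b))
    (hg : ContinuousOn g (Icc a b)) (h : ∀ x ∈ Ioo a b, f x ≤ g x) :
    (∫ x in a..b, f x) ≤ ∫ x in a..b, g x := by
  rw [intervalIntegral.integral_of_le hab, intervalIntegral.integral_of_le hab,
    integral_Ioc_eq_integral_Ioo, integral_Ioc_eq_integral_Ioo]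
  exact setIntegral_mono_on ((hf.integrableOn_Icc).mono_set Ioo_subset_Icc_self)
    ((hg.integrableOn_Icc).mono_set Ioo_subset_Icc_self) measurableSet_Ioo h

/-- A derivative whose primitive vanishes at both ends has integral zero. -/
lemma integral_deriv_eq_zero {a b : ℝ} (hab : a ≤ b) {G G' : ℝ → ℝ}
    (hG : ContinuousOn G (Icc a b)) (hG' : ContinuousOn G' (Icc a b))
    (hd : ∀ x ∈ Ioo a b, HasDerivAt G (G' x) x) (ha : G a = 0) (hb : G b = 0) :
    (∫ x in a..b, G' x) = 0 := by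
  rw [intervalIntegral.integral_eq_sub_of_hasDerivAt_of_le hab hG hd
    (hG'.intervalIntegrable_of_Icc hab), ha, hb, sub_zero]

/-! ### Weights -/

/-- `(1 + y ^ 2) ^ (-j)`. -/
noncomputable def wgt (j : ℕ) (y : ℝ) : ℝ := ((1 + y ^ 2) ^ j)⁻¹

lemma rho_eq (j : ℕ) (y : ℝ) : rho j y = y ^ 3 * wgt j y := div_eq_mul_inv _ _

lemma wgt_pos (j : ℕ) (y : ℝ) : 0 < wgt j y := by unfold wgt; positivity

lemma wgt_le_one (j : ℕ) (y : ℝ) : wgt j y ≤ 1 :=
  inv_le_one_of_one_le₀ (one_le_pow₀ (by nlinarith [sq_nonneg y]))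

lemma wgt_succ (j : ℕ) (y : ℝ) : wgt (j + 1) y = wgt j y * (1 + y ^ 2)⁻¹ := by
  rw [wgt, wgt, pow_succ, mul_inv]

lemma continuous_wgt (j : ℕ) : Continuous (wgt j) :=
  ((continuous_const.add (continuous_pow 2)).pow j).inv₀ fun y => (show (0:ℝ) < (1 + y ^ 2) ^ j by positivity).ne'

lemma hasDerivAt_wgt (j : ℕ) (y : ℝ) :
    HasDerivAt (wgt j) (-(2 * j * y) * wgt (j + 1) y) y := by
  rcases j with _ | j
  · rw [show wgt 0 = fun _ => (1 : ℝ) from funext fun z => by simp [wgt]]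
    simpa using hasDerivAt_const y (1 : ℝ)
  have h0 : ((fun z : ℝ => (1 + z ^ 2) ^ (j + 1)) y) ≠ 0 := by positivity
  have h := (((hasDerivAt_pow 2 y).const_add 1).pow (j + 1)).inv h0
  refine (h.congr_deriv ?_).congr_of_eventuallyEq (Eventually.of_forall fun z => rfl)
  have h1 : (1 + y ^ 2) ≠ 0 := by positivity
  simp only [wgt, Nat.add_sub_cancel, Pi.pow_apply]
  field_simp
  ring

lemma rho_nonneg (j : ℕ) {y : ℝ} (hy : 0 ≤ y) : 0 ≤ rho j y := by
  rw [rho_eq]; have := wgt_pos j y; positivity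

lemma rho_succ (j : ℕ) (y : ℝ) : rho (j + 1) y = rho j y * (1 + y ^ 2)⁻¹ := by
  rw [rho_eq, rho_eq, wgt_succ, mul_assoc]

lemma continuous_rho (j : ℕ) : Continuous (rho j) := by
  rw [show rho j = fun y => y ^ 3 * wgt j y from funext (rho_eq j)]
  exact (continuous_pow 3).mul (continuous_wgt j)

lemma hasDerivAt_rho (j : ℕ) (y : ℝ) :
    HasDerivAt (rho j) (3 * y ^ 2 * wgt j y + y ^ 3 * (-(2 * j * y) * wgt (j + 1) y)) y := by
  rw [show rho j = fun y => y ^ 3 * wgt j y from funext (rho_eq j)]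
  exact ((hasDerivAt_pow 3 y).mul (hasDerivAt_wgt j y)).congr_deriv (by norm_num)

lemma xinv_le_one (y : ℝ) : (1 + y ^ 2)⁻¹ ≤ (1 : ℝ) :=
  inv_le_one_of_one_le₀ (by nlinarith [sq_nonneg y])

lemma uinv_sq_le {y : ℝ} (hy : 0 ≤ y) : ((1 + y)⁻¹) ^ 2 ≤ (1 + y ^ 2)⁻¹ := by
  rw [inv_pow]
  exact inv_anti₀ (by positivity) (by nlinarith)

lemma xinv_le_uinv_sq {y : ℝ} (hy : 0 ≤ y) : (1 + y ^ 2)⁻¹ ≤ 2 * ((1 + y)⁻¹) ^ 2 := by
  rw [inv_pow, ← div_eq_mul_inv, le_div_iff₀ (by positivity), inv_mul_le_iff₀ (by positivity)]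
  nlinarith [sq_nonneg (1 - y)]

/-! ### Elementary inequalities -/

lemma amgm {e : ℝ} (he : 0 < e) (p q : ℝ) : |p * q| ≤ e * p ^ 2 + q ^ 2 / (4 * e) := by
  have h : 0 ≤ (2 * e * |p| - |q|) ^ 2 / (4 * e) := by positivity
  have h2 : (2 * e * |p| - |q|) ^ 2 / (4 * e) =
      e * p ^ 2 + q ^ 2 / (4 * e) - |p * q| := by
    rw [abs_mul, ← sq_abs p, ← sq_abs q]; field_simp; ring
  linarith

lemma amgm_sq {a B C : ℝ} (ha : 0 < a) (hB : B ^ 2 ≤ C * a) (p q : ℝ) :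
    |p * B * q| ≤ a * p ^ 2 / 2 + C * q ^ 2 / 2 := by
  refine le_of_mul_le_mul_left ?_ ha
  have h1 : 0 ≤ (a * |p| - |B * q|) ^ 2 := sq_nonneg _
  rw [abs_mul, abs_mul]
  rw [abs_mul] at h1
  rw [← sq_abs p, ← sq_abs q]
  rw [← sq_abs B] at hB
  nlinarith [mul_le_mul_of_nonneg_right hB (sq_nonneg |q|)]

/-! ### Steps -/

/-- A smooth monotone step from `0` on `(-∞, c]` to `1` on `[d, ∞)`. -/
noncomputable def step (c d y : ℝ) : ℝ := Real.smoothTransition ((y - c) / (d - c))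

lemma contDiff_step (c d : ℝ) : ContDiff ℝ ∞ (step c d) :=
  Real.smoothTransition.contDiff.comp ((contDiff_id.sub contDiff_const).div_const _)

lemma step_nonneg (c d y : ℝ) : 0 ≤ step c d y := Real.smoothTransition.nonneg _

lemma step_le_one (c d y : ℝ) : step c d y ≤ 1 := Real.smoothTransition.le_one _

lemma step_eq_zero {c d y : ℝ} (hcd : c < d) (hy : y ≤ c) : step c d y = 0 :=
  Real.smoothTransition.zero_of_nonpos (div_nonpos_of_nonpos_of_nonneg (by linarith) (by linarith))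

lemma step_eq_one {c d y : ℝ} (hcd : c < d) (hy : d ≤ y) : step c d y = 1 :=
  Real.smoothTransition.one_of_one_le ((one_le_div (by linarith)).2 (by linarith))

lemma hasDerivAt_step (c d y : ℝ) : HasDerivAt (step c d) (deriv (step c d) y) y :=
  (((contDiff_step c d).differentiable (by norm_num)) y).hasDerivAt

lemma contDiff_step' (c d : ℝ) : ContDiff ℝ ∞ (deriv (step c d)) :=
  (contDiff_infty_iff_deriv.1 (contDiff_step c d)).2

lemma hasDerivAt_step' (c d y : ℝ) :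
    HasDerivAt (deriv (step c d)) (deriv (deriv (step c d)) y) y :=
  (((contDiff_step' c d).differentiable (by norm_num)) y).hasDerivAt

lemma continuous_step' (c d : ℝ) : Continuous (deriv (step c d)) := (contDiff_step' c d).continuous

lemma continuous_step'' (c d : ℝ) : Continuous (deriv (deriv (step c d))) :=
  (contDiff_infty_iff_deriv.1 (contDiff_step' c d)).2.continuous

lemma step'_eq_zero {c d y : ℝ} (hcd : c < d) (hy : y ∉ Icc c d) :
    deriv (step c d) y = 0 := by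
  rcases not_and_or.1 (show ¬ (c ≤ y ∧ y ≤ d) from hy) with h | h
  · have : step c d =ᶠ[𝓝 y] fun _ => (0 : ℝ) :=
      eventually_of_mem (Iio_mem_nhds (not_le.1 h)) fun z hz => step_eq_zero hcd hz.le
    rw [this.deriv_eq, deriv_const]
  · have : step c d =ᶠ[𝓝 y] fun _ => (1 : ℝ) :=
      eventually_of_mem (Ioi_mem_nhds (not_le.1 h)) fun z hz => step_eq_one hcd hz.le
    rw [this.deriv_eq, deriv_const]

lemma step''_eq_zero {c d y : ℝ} (hcd : c < d) (hy : y ∉ Icc c d) :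
    deriv (deriv (step c d)) y = 0 := by
  have hopen : (Icc c d)ᶜ ∈ 𝓝 y := isClosed_Icc.isOpen_compl.mem_nhds hy
  have : deriv (step c d) =ᶠ[𝓝 y] fun _ => (0 : ℝ) :=
    eventually_of_mem hopen fun z hz => step'_eq_zero hcd hz
  rw [this.deriv_eq, deriv_const]

lemma step'_right {c d : ℝ} (hcd : c < d) : deriv (step c d) d = 0 := by
  have h : Tendsto (deriv (step c d)) (𝓝[>] d) (𝓝 (deriv (step c d) d)) :=
    (continuous_step' c d).continuousAt.continuousWithinAt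
  have h0 : Tendsto (deriv (step c d)) (𝓝[>] d) (𝓝 0) :=
    tendsto_const_nhds.congr' (eventually_of_mem self_mem_nhdsWithin fun z (hz : d < z) =>
      (step'_eq_zero hcd fun hm => absurd hm.2 (not_le.2 hz)).symm)
  exact tendsto_nhds_unique h h0

lemma exists_step_bound (c d : ℝ) (hcd : c < d) : ∃ B : ℝ, 0 ≤ B ∧
    ∀ y, |deriv (step c d) y| ≤ B ∧ |deriv (deriv (step c d)) y| ≤ B := by
  obtain ⟨B1, h1⟩ := (isCompact_Icc (a := c) (b := d)).exists_bound_of_continuousOn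
    (continuous_step' c d).continuousOn
  obtain ⟨B2, h2⟩ := (isCompact_Icc (a := c) (b := d)).exists_bound_of_continuousOn
    (continuous_step'' c d).continuousOn
  refine ⟨max (max B1 B2) 0, le_max_right _ _, fun y => ?_⟩
  by_cases hy : y ∈ Icc c d
  · have a1 := h1 y hy
    have a2 := h2 y hy
    rw [Real.norm_eq_abs] at a1 a2
    exact ⟨a1.trans ((le_max_left _ _).trans (le_max_left _ _)),
      a2.trans ((le_max_right _ _).trans (le_max_left _ _))⟩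
  · rw [step'_eq_zero hcd hy, step''_eq_zero hcd hy, abs_zero]
    exact ⟨le_max_right _ _, le_max_right _ _⟩

/-! ### Cutoffs and coefficients -/

/-- Derivatives of a cutoff. -/
lemma _root_.Vale.Agent.P264.Cut.hasDerivAt {Y G δ : ℝ} {κ : ℝ → ℝ} (hκ : Cut Y G δ κ) (y : ℝ) :
    HasDerivAt κ (deriv κ y) y :=
  ((hκ.smooth.differentiable (by norm_num)) y).hasDerivAt

lemma _root_.Vale.Agent.P264.Cut.contDiff' {Y G δ : ℝ} {κ : ℝ → ℝ} (hκ : Cut Y G δ κ) :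
    ContDiff ℝ ∞ (deriv κ) := (contDiff_infty_iff_deriv.1 hκ.smooth).2

lemma _root_.Vale.Agent.P264.Cut.hasDerivAt' {Y G δ : ℝ} {κ : ℝ → ℝ} (hκ : Cut Y G δ κ) (y : ℝ) :
    HasDerivAt (deriv κ) (deriv (deriv κ) y) y :=
  ((hκ.contDiff'.differentiable (by norm_num)) y).hasDerivAt

lemma _root_.Vale.Agent.P264.Cut.continuous'' {Y G δ : ℝ} {κ : ℝ → ℝ} (hκ : Cut Y G δ κ) :
    Continuous (deriv (deriv κ)) := (contDiff_infty_iff_deriv.1 hκ.contDiff').2.continuous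

lemma _root_.Vale.Agent.P264.Cut.deriv_flat {Y G δ : ℝ} {κ : ℝ → ℝ} (hκ : Cut Y G δ κ) {y : ℝ} (hy : y < δ) :
    deriv κ y = 0 ∧ deriv (deriv κ) y = 0 := by
  have h1 : ∀ z < δ, deriv κ z = 0 := fun z hz => by
    have : κ =ᶠ[𝓝 z] fun _ => κ 0 :=
      eventually_of_mem (Iio_mem_nhds hz) fun x hx => hκ.flat x (le_of_lt hx)
    rw [this.deriv_eq, deriv_const]
  refine ⟨h1 y hy, ?_⟩
  have : deriv κ =ᶠ[𝓝 y] fun _ => (0 : ℝ) := eventually_of_mem (Iio_mem_nhds hy) h1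
  rw [this.deriv_eq, deriv_const]

lemma _root_.Vale.Agent.P264.Coef.nonneg {Y M δ : ℝ} {a : ℝ → ℝ} (ha : Coef Y M δ a) (hY : 0 < Y) {y : ℝ}
    (hy : y ∈ Icc 0 Y) : 0 ≤ a y := by
  have hc : Icc 0 Y = closure (Ioo 0 Y) := (closure_Ioo hY.ne).symm
  have hco : ContinuousOn a (closure (Ioo 0 Y)) := hc ▸ ha.smooth.continuousOn
  exact le_on_closure (fun x hx => (ha.pos x hx).le) continuousOn_const hco (hc ▸ hy)

end Vale.Agent.P264.Energy
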