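import Vale.Agent.P264.Energy.Annulus

/-!
Coercivity of the dissipation form, down to the fixed point of the rotation.
-/

namespace Vale.Agent.P264.Energy

open Set Filter MeasureTheory Topology
open scoped ContDiff

/-- `wgt j` and its derivatives close to the origin. -/
lemma wgt_near (j : ℕ) (hj : j ≤ 6) {y : ℝ} (hy : 0 ≤ y) (hy1 : y ≤ 1 / 100) :
    999 / 1000 ≤ wgt j y ∧ |y * wgt1 j y| ≤ 2 / 1000 ∧ |y ^ 2 * wgt2 j y| ≤ 5 / 1000 := by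
  have hy2 : y ^ 2 ≤ 1 / 10000 := by nlinarith
  have hj' : (j:ℝ) ≤ 6 := by exact_mod_cast hj
  have hj0 : (0:ℝ) ≤ j := j.cast_nonneg
  have hw := wgt_pos (j + 1) y
  have hw1 := wgt_le_one (j + 1) y
  have hv := wgt_pos (j + 1 + 1) y
  have hv1 := wgt_le_one (j + 1 + 1) y
  refine ⟨?_, ?_, ?_⟩
  · have h : (1 + y ^ 2) ^ j ≤ 1000 / 999 :=
      calc (1 + y ^ 2) ^ j ≤ (1 + 1 / 10000) ^ j := by gcongr
        _ ≤ (1 + 1 / 10000) ^ 6 := pow_le_pow_right₀ (by norm_num) hj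
        _ ≤ 1000 / 999 := by norm_num
    rw [wgt, show (999 / 1000 : ℝ) = (1000 / 999)⁻¹ by norm_num]
    exact inv_anti₀ (by positivity) h
  · rw [wgt1, show y * (-(2 * j * y) * wgt (j + 1) y) = -(2 * j * y ^ 2 * wgt (j + 1) y) by ring,
      abs_neg, abs_of_nonneg (by positivity)]
    calc 2 * (j:ℝ) * y ^ 2 * wgt (j + 1) y ≤ 2 * 6 * (1 / 10000) * 1 := by gcongr
      _ ≤ 2 / 1000 := by norm_num
  · have t1 : 2 * (j:ℝ) * y ^ 2 * wgt (j + 1) y ≤ 2 * 6 * (1 / 10000) * 1 := by gcongr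
    have t2 : 4 * (j:ℝ) * (j + 1) * y ^ 2 * (y ^ 2 * wgt (j + 1 + 1) y)
        ≤ 4 * 6 * (6 + 1) * (1 / 10000) * (1 / 10000 * 1) := by gcongr
    have t3 : 0 ≤ 2 * (j:ℝ) * y ^ 2 * wgt (j + 1) y := by positivity
    have t4 : 0 ≤ 4 * (j:ℝ) * (j + 1) * y ^ 2 * (y ^ 2 * wgt (j + 1 + 1) y) := by positivity
    rw [wgt2, show y ^ 2 * (-(2 * j) * wgt (j + 1) y + 4 * j * (j + 1) * y ^ 2 * wgt (j + 1 + 1) y)
      = -(2 * j * y ^ 2 * wgt (j + 1) y) + 4 * j * (j + 1) * y ^ 2 * (y ^ 2 * wgt (j + 1 + 1) y)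
      by ring, abs_le]
    constructor <;> linarith

/-- The algebraic core: the exact form plus small perturbations. -/
lemma core {y A w w1 w2 : ℝ} (hy : 0 ≤ y) (hA : |A - y ^ 2| ≤ y ^ 2 / 100)
    (hw : 999 / 1000 ≤ w) (hw' : w ≤ 1) (h1 : |y * w1| ≤ 2 / 1000)
    (h2 : |y ^ 2 * w2| ≤ 5 / 1000) (v v1 v2 : ℝ) :
    (-8 * y ^ 4 * v1 * v2 + 15 * y ^ 3 * v * v2 - y ^ 3 * v1 ^ 2 - 45 * y * v ^ 2)
      + 1 / 10 * (y ^ 5 * v2 ^ 2 + y ^ 3 * v1 ^ 2 + y * v ^ 2) ≤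
    A * v2 * (y ^ 3 * w * v2 + (2 * y ^ 3 * w1 - 8 * y ^ 2 * w) * v1
      + (y ^ 3 * w2 - 8 * y ^ 2 * w1 + 20 * y * w) * v) := by
  rcases hy.eq_or_lt with h | hy0
  · subst h; simp
  have hy2 : 0 < y ^ 2 := by positivity
  obtain ⟨r, hr⟩ : ∃ r, A = y ^ 2 * r := ⟨A / y ^ 2, by field_simp⟩
  have hrr : |r - 1| ≤ 1 / 100 := by
    rw [hr, show y ^ 2 * r - y ^ 2 = y ^ 2 * (r - 1) by ring, abs_mul, abs_of_pos hy2] at hA
    nlinarith
  obtain ⟨r1, r2⟩ := abs_le.1 hrr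
  obtain ⟨a1, a2⟩ := abs_le.1 h1
  obtain ⟨b1, b2⟩ := abs_le.1 h2
  obtain ⟨f1, hf1⟩ : ∃ f, r * (2 * (y * w1) - 8 * w) = -8 + f := ⟨_, (add_sub_cancel _ _).symm⟩
  obtain ⟨f2, hf2⟩ : ∃ f, r * (y ^ 2 * w2 - 8 * (y * w1) + 20 * w) = 20 + f :=
    ⟨_, (add_sub_cancel _ _).symm⟩
  have h0 : 98 / 100 ≤ r * w := by nlinarith
  have g1 : |f1| ≤ 1 / 10 := abs_le.2 ⟨by nlinarith, by nlinarith⟩
  have g2 : |f2| ≤ 3 / 10 := abs_le.2 ⟨by nlinarith, by nlinarith⟩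
  set P := y ^ 2 * v2
  set Qv := y * v1
  have main : 0 ≤ (r * w - 1 / 10) * P ^ 2 + 5 * P * v + 9 / 10 * Qv ^ 2 + 449 / 10 * v ^ 2
      + f1 * (P * Qv) + f2 * (P * v) := by
    have t1 : |f1 * (P * Qv)| ≤ 1 / 10 * (P ^ 2 / 2 + Qv ^ 2 / 2) := by
      rw [abs_mul]
      refine mul_le_mul g1 ?_ (abs_nonneg _) (by norm_num)
      rw [abs_le]; constructor <;> nlinarith [sq_nonneg (P - Qv), sq_nonneg (P + Qv)]
    have t2 : |f2 * (P * v)| ≤ 3 / 10 * (P ^ 2 / 2 + v ^ 2 / 2) := by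
      rw [abs_mul]
      refine mul_le_mul g2 ?_ (abs_nonneg _) (by norm_num)
      rw [abs_le]; constructor <;> nlinarith [sq_nonneg (P - v), sq_nonneg (P + v)]
    nlinarith [(abs_le.1 t1).1, (abs_le.1 t2).1, sq_nonneg (P + 5 * v),
      mul_nonneg (show (0:ℝ) ≤ r * w - 98 / 100 by linarith) (sq_nonneg P)]
  have e : A * v2 * (y ^ 3 * w * v2 + (2 * y ^ 3 * w1 - 8 * y ^ 2 * w) * v1
      + (y ^ 3 * w2 - 8 * y ^ 2 * w1 + 20 * y * w) * v) =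
      y * (r * w * P ^ 2 + r * (2 * (y * w1) - 8 * w) * (P * Qv)
        + r * (y ^ 2 * w2 - 8 * (y * w1) + 20 * w) * (P * v)) := by
    rw [hr]; ring
  rw [e, hf1, hf2]
  have e2 : y * (r * w * P ^ 2 + (-8 + f1) * (P * Qv) + (20 + f2) * (P * v))
      - ((-8 * y ^ 4 * v1 * v2 + 15 * y ^ 3 * v * v2 - y ^ 3 * v1 ^ 2 - 45 * y * v ^ 2)
        + 1 / 10 * (y ^ 5 * v2 ^ 2 + y ^ 3 * v1 ^ 2 + y * v ^ 2)) =
      y * ((r * w - 1 / 10) * P ^ 2 + 5 * P * v + 9 / 10 * Qv ^ 2 + 449 / 10 * v ^ 2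
        + f1 * (P * Qv) + f2 * (P * v)) := by ring
  have := mul_nonneg hy main
  linarith

/-- The inner cutoff. -/
noncomputable def inner (δ y : ℝ) : ℝ := 1 - step (δ / 2) δ y

/-- Primitive used near the origin. -/
noncomputable def corePrim (δ Y : ℝ) (V : ℝ → ℝ) (y : ℝ) : ℝ :=
  inner δ y * (-4 * y ^ 4 * D1 Y V y ^ 2 + 15 * y ^ 3 * (V y * D1 Y V y))
    - 15 / 2 * ((-deriv (step (δ / 2) δ) y) * y ^ 3 + 3 * inner δ y * y ^ 2) * V y ^ 2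

/-- Remainder of the exact identity, supported where the cutoff varies. -/
noncomputable def coreRem (δ Y : ℝ) (V : ℝ → ℝ) (y : ℝ) : ℝ :=
  4 * (-deriv (step (δ / 2) δ) y) * y ^ 4 * D1 Y V y ^ 2
    + 15 / 2 * ((-deriv (deriv (step (δ / 2) δ)) y) * y ^ 3
      + 6 * (-deriv (step (δ / 2) δ) y) * y ^ 2) * V y ^ 2

/-- Derivative of `corePrim`. -/
noncomputable def corePrim' (δ Y : ℝ) (V : ℝ → ℝ) (y : ℝ) : ℝ :=
  inner δ y * (-8 * y ^ 4 * D1 Y V y * D2 Y V y + 15 * y ^ 3 * V y * D2 Y V y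
    - y ^ 3 * D1 Y V y ^ 2 - 45 * y * V y ^ 2) - coreRem δ Y V y

lemma hasDerivAt_corePrim {δ Y : ℝ} {V : ℝ → ℝ} (hY : 0 < Y) (hV : ContDiffOn ℝ ∞ V (Icc 0 Y))
    {y : ℝ} (hy : y ∈ Ioo 0 Y) : HasDerivAt (corePrim δ Y V) (corePrim' δ Y V y) y := by
  have dv := hasDerivAt_D1 hV hy
  have dv1 := hasDerivAt_D2 hY hV hy
  have dc : HasDerivAt (inner δ) (-deriv (step (δ / 2) δ) y) y :=
    (hasDerivAt_step (δ / 2) δ y).const_sub 1
  have dc' : HasDerivAt (fun z => -deriv (step (δ / 2) δ) z)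
      (-deriv (deriv (step (δ / 2) δ)) y) y := (hasDerivAt_step' (δ / 2) δ y).neg
  have d2 := hasDerivAt_pow 2 y
  have d3 := hasDerivAt_pow 3 y
  have d4 := hasDerivAt_pow 4 y
  have h := (dc.mul (((d4.const_mul (-4)).mul (dv1.pow 2)).add
    ((d3.const_mul 15).mul (dv.mul dv1)))).sub
    ((((dc'.mul d3).add ((dc.const_mul 3).mul d2)).const_mul (15 / 2)).mul (dv.pow 2))
  refine h.congr_deriv ?_
  simp only [corePrim', coreRem, Pi.add_apply, Pi.mul_apply, Pi.pow_apply]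
  push_cast
  ring

/-- The integrand of the form after integration by parts. -/
noncomputable def formI (j : ℕ) (Y : ℝ) (κ a V : ℝ → ℝ) (y : ℝ) : ℝ :=
  a y * D2 Y V y * (y ^ 3 * hfn j κ y * D2 Y V y + pA j κ y * D1 Y V y + pB j κ y * V y)

/-- The integrand of `near`. -/
noncomputable def nI (Y : ℝ) (V : ℝ → ℝ) (y : ℝ) : ℝ :=
  y ^ 3 * D1 Y V y ^ 2 + y * V y ^ 2

section

variable {Y M G δ : ℝ} {a κ V : ℝ → ℝ} {j : ℕ}

lemma inner_nonneg (δ y : ℝ) : 0 ≤ inner δ y := by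
  simp only [inner]; linarith [step_le_one (δ / 2) δ y]

lemma inner_le_one (δ y : ℝ) : inner δ y ≤ 1 := by
  simp only [inner]; linarith [step_nonneg (δ / 2) δ y]

lemma inner_left {δ y : ℝ} (hδ : 0 < δ) (hy : y ≤ δ / 2) : inner δ y = 1 := by
  simp [inner, step_eq_zero (show δ / 2 < δ by linarith) hy]

lemma inner_right {δ y : ℝ} (hδ : 0 < δ) (hy : δ ≤ y) : inner δ y = 0 := by
  simp [inner, step_eq_one (show δ / 2 < δ by linarith) hy]

lemma nI_nonneg {y : ℝ} (hy : 0 ≤ y) : 0 ≤ nI Y V y := by unfold nI; positivity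

lemma qW_nonneg (ha : Coef Y M δ a) (hκ : Cut Y G δ κ) {y : ℝ} (hy : y ∈ Ioo 0 Y) :
    0 ≤ qW j δ κ a y * D1 Y V y ^ 2 := by
  have := rho_nonneg (j + 1) hy.1.le; have := (ha.pos y hy).le; have := hκ.nonneg y
  unfold qW; positivity

/-- Where the cutoff is flat and `y ≥ δ / 2`, everything is lower order. -/
lemma flat_bounds (hj : j ≤ 6) (hδ : 0 < δ) (hδ1 : δ ≤ 1 / 100) (ha : Coef Y M δ a)
    (hκ : Cut Y G δ κ) {y : ℝ} (hy1 : δ / 2 ≤ y) (hy2 : y ≤ δ) :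
    κ 0 ^ 8 * (y ^ 4 * D1 Y V y ^ 2) ≤ 4 / δ * (qW j δ κ a y * D1 Y V y ^ 2) ∧
    κ 0 ^ 8 * (y ^ 2 * V y ^ 2) ≤ 4 / δ * lI j κ V y ∧
    κ 0 ^ 8 * (y ^ 3 * D1 Y V y ^ 2) ≤ 8 / δ ^ 2 * (qW j δ κ a y * D1 Y V y ^ 2) ∧
    κ 0 ^ 8 * (y * V y ^ 2) ≤ 8 / δ ^ 2 * lI j κ V y := by
  have hy0 : 0 < y := by linarith
  have hw : 99 / 100 ≤ wgt (j + 1) y := by
    rw [wgt_succ]
    refine le_trans (by norm_num) (mul_le_mul (wgt_near j hj hy0.le (by linarith)).1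
      (show (999 / 1000 : ℝ) ≤ (1 + y ^ 2)⁻¹ from ?_) (by norm_num) (wgt_pos j y).le)
    rw [show (999 / 1000 : ℝ) = (1000 / 999)⁻¹ by norm_num]
    exact inv_anti₀ (by positivity) (by nlinarith)
  have hA : 99 / 100 * y ^ 2 ≤ a y := by
    have := (abs_le.1 (ha.near0 y ⟨hy0.le, hy2⟩)).1; linarith
  have hk : κ y = κ 0 := hκ.flat y hy2
  have hk0 := hκ.nonneg 0
  have hk1 := hκ.le_one 0
  have h86 : κ 0 ^ 8 ≤ κ 0 ^ 6 := pow_le_pow_of_le_one hk0 hk1 (by norm_num)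
  have h84 : κ 0 ^ 8 ≤ κ 0 ^ 4 := pow_le_pow_of_le_one hk0 hk1 (by norm_num)
  have hQ : κ 0 ^ 8 * (y ^ 5 * D1 Y V y ^ 2) ≤ 2 * (qW j δ κ a y * D1 Y V y ^ 2) := by
    simp only [qW, step_eq_one (show δ / 4 < δ / 2 by linarith) hy1, hk, rho_eq, one_pow, one_mul]
    calc κ 0 ^ 8 * (y ^ 5 * D1 Y V y ^ 2)
        ≤ κ 0 ^ 6 * (y ^ 5 * D1 Y V y ^ 2) := mul_le_mul_of_nonneg_right h86 (by positivity)
      _ ≤ κ 0 ^ 6 * (y ^ 5 * D1 Y V y ^ 2) * (2 * (99 / 100) * (99 / 100)) :=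
          le_mul_of_one_le_right (by positivity) (by norm_num)
      _ = 2 * (κ 0 ^ 6 * (y ^ 3 * (99 / 100)) * (99 / 100 * y ^ 2) * D1 Y V y ^ 2) := by ring
      _ ≤ 2 * (κ 0 ^ 6 * (y ^ 3 * wgt (j + 1) y) * a y * D1 Y V y ^ 2) := by
          have := wgt_pos (j + 1) y
          gcongr
  have hL : κ 0 ^ 8 * (y ^ 3 * V y ^ 2) ≤ 2 * lI j κ V y := by
    simp only [lI, hk, rho_eq]
    calc κ 0 ^ 8 * (y ^ 3 * V y ^ 2) ≤ κ 0 ^ 4 * (y ^ 3 * V y ^ 2) :=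
          mul_le_mul_of_nonneg_right h84 (by positivity)
      _ ≤ κ 0 ^ 4 * (y ^ 3 * V y ^ 2) * (2 * (99 / 100)) :=
          le_mul_of_one_le_right (by positivity) (by norm_num)
      _ = 2 * (κ 0 ^ 4 * (y ^ 3 * (99 / 100)) * V y ^ 2) := by ring
      _ ≤ 2 * (κ 0 ^ 4 * (y ^ 3 * wgt (j + 1) y) * V y ^ 2) := by gcongr
  have hyi : 1 ≤ 2 / δ * y := by rw [div_mul_eq_mul_div, le_div_iff₀ hδ]; linarith
  have h2 : (0:ℝ) ≤ 2 / δ := by positivity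
  refine ⟨?_, ?_, ?_, ?_⟩
  · calc κ 0 ^ 8 * (y ^ 4 * D1 Y V y ^ 2)
        ≤ (2 / δ * y) * (κ 0 ^ 8 * (y ^ 4 * D1 Y V y ^ 2)) :=
          le_mul_of_one_le_left (by positivity) hyi
      _ = 2 / δ * (κ 0 ^ 8 * (y ^ 5 * D1 Y V y ^ 2)) := by ring
      _ ≤ 2 / δ * (2 * (qW j δ κ a y * D1 Y V y ^ 2)) := mul_le_mul_of_nonneg_left hQ h2
      _ = _ := by ring
  · calc κ 0 ^ 8 * (y ^ 2 * V y ^ 2) ≤ (2 / δ * y) * (κ 0 ^ 8 * (y ^ 2 * V y ^ 2)) :=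
          le_mul_of_one_le_left (by positivity) hyi
      _ = 2 / δ * (κ 0 ^ 8 * (y ^ 3 * V y ^ 2)) := by ring
      _ ≤ 2 / δ * (2 * lI j κ V y) := mul_le_mul_of_nonneg_left hL h2
      _ = _ := by ring
  · calc κ 0 ^ 8 * (y ^ 3 * D1 Y V y ^ 2)
        ≤ (2 / δ * y) ^ 2 * (κ 0 ^ 8 * (y ^ 3 * D1 Y V y ^ 2)) :=
          le_mul_of_one_le_left (by positivity) (one_le_pow₀ hyi)
      _ = (2 / δ) ^ 2 * (κ 0 ^ 8 * (y ^ 5 * D1 Y V y ^ 2)) := by ring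
      _ ≤ (2 / δ) ^ 2 * (2 * (qW j δ κ a y * D1 Y V y ^ 2)) :=
          mul_le_mul_of_nonneg_left hQ (sq_nonneg _)
      _ = _ := by ring
  · calc κ 0 ^ 8 * (y * V y ^ 2) ≤ (2 / δ * y) ^ 2 * (κ 0 ^ 8 * (y * V y ^ 2)) :=
          le_mul_of_one_le_left (by positivity) (one_le_pow₀ hyi)
      _ = (2 / δ) ^ 2 * (κ 0 ^ 8 * (y ^ 3 * V y ^ 2)) := by ring
      _ ≤ (2 / δ) ^ 2 * (2 * lI j κ V y) := mul_le_mul_of_nonneg_left hL (sq_nonneg _)
      _ = _ := by ring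

/-- The remainder of the exact identity is lower order. -/
lemma rem_bound (hj : j ≤ 6) (hδ : 0 < δ) (hδ1 : δ ≤ 1 / 100) (ha : Coef Y M δ a)
    (hκ : Cut Y G δ κ) {Bs : ℝ} (hBs : 0 ≤ Bs)
    (hstep : ∀ z, |deriv (step (δ / 2) δ) z| ≤ Bs ∧ |deriv (deriv (step (δ / 2) δ)) z| ≤ Bs)
    {y : ℝ} (hy : y ∈ Ioo 0 Y) :
    |κ 0 ^ 8 * coreRem δ Y V y| ≤
      240 * Bs / δ * (qW j δ κ a y * D1 Y V y ^ 2 + lI j κ V y) := by
  have hQ := qW_nonneg (j := j) (V := V) ha hκ hy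
  have hL : 0 ≤ lI j κ V y := lI_nonneg j hy.1.le
  by_cases hm : y ∈ Icc (δ / 2) δ
  swap
  · simp only [coreRem, step'_eq_zero (show δ / 2 < δ by linarith) hm,
      step''_eq_zero (show δ / 2 < δ by linarith) hm]
    simp only [neg_zero, mul_zero, zero_mul, add_zero, abs_zero]
    positivity
  obtain ⟨s1, s2, -, -⟩ := flat_bounds (V := V) hj hδ hδ1 ha hκ hm.1 hm.2
  set d1 := deriv (step (δ / 2) δ) y
  set d2 := deriv (deriv (step (δ / 2) δ)) y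
  have e3 : |(-d2) * y + 6 * (-d1)| ≤ 8 * Bs := by
    have : |d2 * y| ≤ Bs * 1 := by
      rw [abs_mul, abs_of_pos hy.1]
      exact mul_le_mul (hstep y).2 (by linarith [hm.2]) hy.1.le hBs
    have := abs_le.1 this
    have := abs_le.1 (hstep y).1
    rw [abs_le]; constructor <;> linarith
  have e : κ 0 ^ 8 * coreRem δ Y V y = 4 * (-d1) * (κ 0 ^ 8 * (y ^ 4 * D1 Y V y ^ 2))
      + 15 / 2 * ((-d2) * y + 6 * (-d1)) * (κ 0 ^ 8 * (y ^ 2 * V y ^ 2)) := by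
    simp only [coreRem]; ring
  have hk := hκ.nonneg 0
  rw [e]
  refine (abs_add_le _ _).trans ?_
  have a1 : |4 * (-d1) * (κ 0 ^ 8 * (y ^ 4 * D1 Y V y ^ 2))| =
      4 * |d1| * (κ 0 ^ 8 * (y ^ 4 * D1 Y V y ^ 2)) := by
    rw [abs_mul, abs_mul, abs_neg, abs_of_nonneg (show (0:ℝ) ≤ 4 by norm_num),
      abs_of_nonneg (show (0:ℝ) ≤ κ 0 ^ 8 * (y ^ 4 * D1 Y V y ^ 2) by positivity)]
  have a2 : |15 / 2 * ((-d2) * y + 6 * (-d1)) * (κ 0 ^ 8 * (y ^ 2 * V y ^ 2))| =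
      15 / 2 * |(-d2) * y + 6 * (-d1)| * (κ 0 ^ 8 * (y ^ 2 * V y ^ 2)) := by
    rw [abs_mul, abs_mul, abs_of_nonneg (show (0:ℝ) ≤ 15 / 2 by norm_num),
      abs_of_nonneg (show (0:ℝ) ≤ κ 0 ^ 8 * (y ^ 2 * V y ^ 2) by positivity)]
  rw [a1, a2]
  have t1 : 4 * |d1| * (κ 0 ^ 8 * (y ^ 4 * D1 Y V y ^ 2)) ≤
      4 * Bs * (4 / δ * (qW j δ κ a y * D1 Y V y ^ 2)) :=
    mul_le_mul (mul_le_mul_of_nonneg_left (hstep y).1 (by norm_num)) s1 (by positivity)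
      (by positivity)
  have t2 : 15 / 2 * |(-d2) * y + 6 * (-d1)| * (κ 0 ^ 8 * (y ^ 2 * V y ^ 2)) ≤
      15 / 2 * (8 * Bs) * (4 / δ * lI j κ V y) :=
    mul_le_mul (mul_le_mul_of_nonneg_left e3 (by norm_num)) s2 (by positivity) (by positivity)
  have t3 : 0 ≤ Bs / δ * (qW j δ κ a y * D1 Y V y ^ 2) := by positivity
  have e1 : 4 * Bs * (4 / δ * (qW j δ κ a y * D1 Y V y ^ 2)) =
      16 * (Bs / δ * (qW j δ κ a y * D1 Y V y ^ 2)) := by ring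
  have e2 : 15 / 2 * (8 * Bs) * (4 / δ * lI j κ V y) = 240 * (Bs / δ * lI j κ V y) := by ring
  have e4 : 240 * Bs / δ * (qW j δ κ a y * D1 Y V y ^ 2 + lI j κ V y) =
      240 * (Bs / δ * (qW j δ κ a y * D1 Y V y ^ 2)) + 240 * (Bs / δ * lI j κ V y) := by ring
  linarith

/-- The part of the form near the origin. -/
lemma inner_part (hj : j ≤ 6) (hδ : 0 < δ) (hδ1 : δ ≤ 1 / 100) (ha : Coef Y M δ a)
    (hκ : Cut Y G δ κ) {Bs : ℝ} (hBs : 0 ≤ Bs)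
    (hstep : ∀ z, |deriv (step (δ / 2) δ) z| ≤ Bs ∧ |deriv (deriv (step (δ / 2) δ)) z| ≤ Bs)
    {y : ℝ} (hy : y ∈ Ioo 0 Y) :
    κ 0 ^ 8 * corePrim' δ Y V y + 8 / 100 * (inner δ y * dI j κ a (D2 Y V) y)
        + 8 / 100 * (κ 0 ^ 8 * (inner δ y * nI Y V y))
      ≤ inner δ y * formI j Y κ a V y
        + 240 * Bs / δ * (qW j δ κ a y * D1 Y V y ^ 2 + lI j κ V y) := by
  have hrem := abs_le.1 (rem_bound (V := V) hj hδ hδ1 ha hκ hBs hstep hy)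
  have hχ0 := inner_nonneg δ y
  rcases lt_or_ge y δ with h | h
  swap
  · simp only [corePrim', inner_right hδ h, zero_mul, zero_sub, mul_zero, add_zero, zero_add,
      mul_neg]
    linarith
  obtain ⟨w0, w1', w2'⟩ := wgt_near j hj hy.1.le (by linarith)
  have hnear := ha.near0 y ⟨hy.1.le, h.le⟩
  have hk : κ y = κ 0 := hκ.flat y h.le
  have hK0 : 0 ≤ κ 0 ^ 8 := pow_nonneg (hκ.nonneg 0) 8
  have hy0 := hy.1
  obtain ⟨e0, eA, eB⟩ := coef_flat hκ j h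
  have hcore : inner δ y * (κ 0 ^ 8 * ((-8 * y ^ 4 * D1 Y V y * D2 Y V y
      + 15 * y ^ 3 * V y * D2 Y V y - y ^ 3 * D1 Y V y ^ 2 - 45 * y * V y ^ 2)
      + 1 / 10 * (y ^ 5 * D2 Y V y ^ 2 + nI Y V y))) ≤ inner δ y * formI j Y κ a V y := by
    refine mul_le_mul_of_nonneg_left ?_ hχ0
    have := mul_le_mul_of_nonneg_left
      (core hy0.le hnear w0 (wgt_le_one j y) w1' w2' (V y) (D1 Y V y) (D2 Y V y)) hK0
    simp only [formI, e0, eA, eB, nI]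
    refine le_trans (le_of_eq ?_) (this.trans (le_of_eq ?_)) <;> ring
  have hDle : inner δ y * dI j κ a (D2 Y V) y ≤
      101 / 100 * (inner δ y * (κ 0 ^ 8 * (y ^ 5 * D2 Y V y ^ 2))) := by
    rw [mul_left_comm (101 / 100 : ℝ)]
    refine mul_le_mul_of_nonneg_left ?_ hχ0
    simp only [dI, hk, rho_eq]
    have hA2 : a y ≤ 101 / 100 * y ^ 2 := by linarith [(abs_le.1 hnear).2]
    calc κ 0 ^ 8 * (y ^ 3 * wgt j y) * (a y * D2 Y V y ^ 2)
        ≤ κ 0 ^ 8 * (y ^ 3 * 1) * (101 / 100 * y ^ 2 * D2 Y V y ^ 2) := by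
          have := wgt_le_one j y; have := wgt_pos j y; have := (ha.pos y hy).le; gcongr
      _ = _ := by ring
  have hP : 0 ≤ inner δ y * (κ 0 ^ 8 * (y ^ 5 * D2 Y V y ^ 2)) := by positivity
  have hN : 0 ≤ κ 0 ^ 8 * (inner δ y * nI Y V y) :=
    mul_nonneg hK0 (mul_nonneg hχ0 (nI_nonneg hy0.le))
  simp only [corePrim']
  linear_combination hcore + (8 / 100 : ℝ) * hDle + hrem.1 + (192 / 10000 : ℝ) * hP
    + (2 / 100 : ℝ) * hN

/-- The part of the form away from the origin. -/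
lemma outer_part (hδ : 0 < δ) (ha : Coef Y M δ a) {C1 : ℝ} (hC1 : 0 ≤ C1)
    (hcross : ∀ y ∈ Ioo 0 Y, δ / 2 ≤ y →
      |a y * D2 Y V y * pA j κ y * D1 Y V y| ≤
          1 / 100 * dI j κ a (D2 Y V) y + C1 * (qW j δ κ a y * D1 Y V y ^ 2) ∧
      |a y * D2 Y V y * pB j κ y * V y| ≤
          1 / 100 * dI j κ a (D2 Y V) y + C1 * lI j κ V y)
    (hκ : Cut Y G δ κ) {y : ℝ} (hy : y ∈ Ioo 0 Y) :
    (1 - inner δ y) * dI j κ a (D2 Y V) y - 2 / 100 * dI j κ a (D2 Y V) y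
        - C1 * (qW j δ κ a y * D1 Y V y ^ 2 + lI j κ V y)
      ≤ (1 - inner δ y) * formI j Y κ a V y := by
  have hD : 0 ≤ dI j κ a (D2 Y V) y := dI_nonneg j hy.1.le (ha.pos y hy).le
  have hS : 0 ≤ C1 * (qW j δ κ a y * D1 Y V y ^ 2 + lI j κ V y) :=
    mul_nonneg hC1 (add_nonneg (qW_nonneg ha hκ hy) (lI_nonneg j hy.1.le))
  rcases lt_or_ge y (δ / 2) with h | h
  · rw [inner_left hδ h.le]; linarith
  obtain ⟨c1, c2⟩ := hcross y hy h
  have e : formI j Y κ a V y = dI j κ a (D2 Y V) y + (a y * D2 Y V y * pA j κ y * D1 Y V y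
      + a y * D2 Y V y * pB j κ y * V y) := by
    simp only [formI, dI, hfn, rho_eq]; ring
  have hh : dI j κ a (D2 Y V) y - (2 / 100 * dI j κ a (D2 Y V) y
      + C1 * (qW j δ κ a y * D1 Y V y ^ 2 + lI j κ V y)) ≤ formI j Y κ a V y := by
    rw [e, mul_add C1]; linarith [(abs_le.1 c1).1, (abs_le.1 c2).1]
  have := mul_le_mul_of_nonneg_left hh (show 0 ≤ 1 - inner δ y by linarith [inner_le_one δ y])
  have h2 : (1 - inner δ y) * (2 / 100 * dI j κ a (D2 Y V) y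
      + C1 * (qW j δ κ a y * D1 Y V y ^ 2 + lI j κ V y)) ≤ 2 / 100 * dI j κ a (D2 Y V) y
      + C1 * (qW j δ κ a y * D1 Y V y ^ 2 + lI j κ V y) :=
    mul_le_of_le_one_left (by linarith) (by linarith [inner_nonneg δ y])
  rw [mul_sub] at this
  linarith

/-- `near` is controlled by the cut-off part and lower order terms. -/
lemma near_bound (hj : j ≤ 6) (hδ : 0 < δ) (hδ1 : δ ≤ 1 / 100) (hδY : δ ≤ Y) (ha : Coef Y M δ a)
    (hκ : Cut Y G δ κ) (hV : ContDiffOn ℝ ∞ V (Icc 0 Y)) :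
    κ 0 ^ 8 * near δ V ≤ ∫ y in (0:ℝ)..Y, (κ 0 ^ 8 * (inner δ y * nI Y V y)
      + 8 / δ ^ 2 * (qW j δ κ a y * D1 Y V y ^ 2 + lI j κ V y)) := by
  have hY : 0 < Y := lt_of_lt_of_le hδ hδY
  have e : near δ V = ∫ y in (0:ℝ)..δ, nI Y V y :=
    integral_congr_Ioo hδ.le fun y hy => by
      rw [nI, deriv_eq_D1 hV ⟨hy.1, lt_of_lt_of_le hy.2 hδY⟩]
  set f : ℝ → ℝ := fun y => κ 0 ^ 8 * (inner δ y * nI Y V y)
      + 8 / δ ^ 2 * (qW j δ κ a y * D1 Y V y ^ 2 + lI j κ V y) with hf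
  have cV1 := continuousOn_D1 hY hV
  have cV := hV.continuousOn
  have cq := continuousOn_qW (δ := δ) j hκ ha.smooth.continuousOn
  have cl := continuousOn_lI j hκ cV
  have ci : Continuous (inner δ) := continuous_const.sub (contDiff_step _ _).continuous
  have cn : ContinuousOn (nI Y V) (Icc 0 Y) := by unfold nI; fun_prop
  have cf : ContinuousOn f (Icc 0 Y) := by rw [hf]; fun_prop
  have hk := hκ.nonneg 0
  have hpos : ∀ y ∈ Ioo 0 Y, 0 ≤ 8 / δ ^ 2 * (qW j δ κ a y * D1 Y V y ^ 2 + lI j κ V y) ∧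
      0 ≤ κ 0 ^ 8 * (inner δ y * nI Y V y) := fun y hy =>
    ⟨mul_nonneg (by positivity) (add_nonneg (qW_nonneg ha hκ hy) (lI_nonneg j hy.1.le)),
      mul_nonneg (by positivity) (mul_nonneg (inner_nonneg _ _) (nI_nonneg hy.1.le))⟩
  have hsub : Icc (0:ℝ) δ ⊆ Icc 0 Y := Icc_subset_Icc_right hδY
  have h1 : κ 0 ^ 8 * near δ V ≤ ∫ y in (0:ℝ)..δ, f y := by
    rw [e, ← intervalIntegral.integral_const_mul]
    refine integral_le_of_Ioo hδ.le (continuousOn_const.mul (cn.mono hsub)) (cf.mono hsub)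
      fun y hy => ?_
    have hyY : y ∈ Ioo 0 Y := ⟨hy.1, lt_of_lt_of_le hy.2 hδY⟩
    obtain ⟨p1, p2⟩ := hpos y hyY
    show κ 0 ^ 8 * nI Y V y ≤ f y
    simp only [hf]
    rcases lt_or_ge y (δ / 2) with h | h
    · rw [inner_left hδ h.le, one_mul]; linarith
    · obtain ⟨-, -, s3, s4⟩ := flat_bounds (V := V) hj hδ hδ1 ha hκ h hy.2.le
      simp only [nI] at p2 ⊢
      rw [mul_add (κ 0 ^ 8), mul_add (8 / δ ^ 2)]
      linarith
  refine h1.trans ?_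
  have i1 : IntervalIntegrable f volume 0 δ := (cf.mono hsub).intervalIntegrable_of_Icc hδ.le
  have i2 : IntervalIntegrable f volume δ Y :=
    (cf.mono (Icc_subset_Icc_left hδ.le)).intervalIntegrable_of_Icc hδY
  rw [← intervalIntegral.integral_add_adjacent_intervals i1 i2]
  have h2 := integral_le_of_Ioo hδY (f := fun _ => (0:ℝ)) continuousOn_const
    (cf.mono (Icc_subset_Icc_left hδ.le)) fun y hy => by
      obtain ⟨p1, p2⟩ := hpos y ⟨lt_trans hδ hy.1, hy.2⟩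
      simp only [hf]; linarith
  simp only [intervalIntegral.integral_zero] at h2
  linarith

/-- The form equals the integral of `formI`. -/
lemma form_eq (hY : 0 < Y) (ha : Coef Y M δ a) (hκ : Cut Y G δ κ) (hedge : Edge Y κ a)
    (hV : ContDiffOn ℝ ∞ V (Icc 0 Y)) :
    (∫ y in (0:ℝ)..Y, κ y ^ 8 * rho j y * V y * dst (fun z => a z * deriv (deriv V) z) y)
      = ∫ y in (0:ℝ)..Y, formI j Y κ a V y := by
  have e : (∫ y in (0:ℝ)..Y, κ y ^ 8 * rho j y * V y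
      * dst (fun z => a z * deriv (deriv V) z) y) =
      ∫ y in (0:ℝ)..Y, κ y ^ 8 * rho j y * V y * dst (fun z => a z * D2 Y V z) y := by
    refine integral_congr_Ioo hY.le fun y hy => ?_
    have : (fun z => z ^ 7 * (a z * deriv (deriv V) z)) =ᶠ[𝓝 y]
        fun z => z ^ 7 * (a z * D2 Y V z) :=
      eventually_of_mem (Ioo_mem_nhds hy.1 hy.2) fun z hz => by
        simp only [deriv2_eq_D2 hY hV hz]
    simp only [dst, this.deriv.deriv_eq]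
  have hF : ContDiffOn ℝ ∞ (fun z => a z * D2 Y V z) (Icc 0 Y) :=
    ha.smooth.mul (contDiffOn_D1 hY (contDiffOn_D1 hY hV))
  rw [e, pairing hκ j hY hV hF ?_]
  · rfl
  rcases hedge with h | ⟨h, h'⟩
  · exact Or.inl h
  · refine Or.inr ⟨by simp [h], ?_⟩
    have hd := ((ha.smooth.differentiableOn (by norm_num) Y (right_mem_Icc.2 hY.le)
      ).hasDerivWithinAt).mul
      (((contDiffOn_D1 hY (contDiffOn_D1 hY hV)).differentiableOn (by norm_num) Y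
        (right_mem_Icc.2 hY.le)).hasDerivWithinAt)
    have hu : UniqueDiffWithinAt ℝ (Icc 0 Y) Y :=
      (uniqueDiffOn_Icc hY) Y (right_mem_Icc.2 hY.le)
    rw [D1, show (fun z => a z * D2 Y V z) = a * D1 Y (D1 Y V) from rfl, hd.derivWithin hu, h, h']
    ring

end

theorem coercive : CoerciveTarget := by
  refine ⟨1 / 100, by norm_num, fun j _ hj6 M G δ hδ hδ1 => ?_⟩
  obtain ⟨C1, hC1, hcross⟩ := cross j M G δ hδ
  obtain ⟨Bs, hBs, hstep⟩ := exists_step_bound (δ / 2) δ (by linarith)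
  set C2 := 240 * Bs / δ + 100 * C1 + 8 / δ ^ 2 + 1 with hC2
  have hC20 : 0 < C2 := by positivity
  obtain ⟨C3, hC3, hann⟩ := annulus j M G δ hδ (1 / (100 * C2)) (by positivity)
  refine ⟨1 / 100, C2 * C3 + C2, by norm_num, by positivity,
    fun Y a κ V hδY ha hκ hedge hV => ?_⟩
  have hY : 0 < Y := lt_of_lt_of_le hδ hδY
  have hedge' : κ Y = 0 ∨ a Y = 0 := hedge.imp id And.left
  have hann' := hann Y a κ V hδY ha hκ hedge' hV
  have hnear := near_bound (j := j) hj6 hδ hδ1 hδY ha hκ hV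
  rw [form_eq hY ha hκ hedge hV, diss_eq hY hV, loss_eq]
  rw [diss_eq hY hV, loss_eq] at hann'
  have ca := ha.smooth.continuousOn
  have cV := hV.continuousOn
  have cV1 := continuousOn_D1 hY hV
  have cV2 := continuousOn_D2 hY hV
  have cD := continuousOn_dI j hκ ca cV2
  have cL := continuousOn_lI j hκ cV
  have cq := continuousOn_qW (δ := δ) j hκ ca
  have cI : Continuous (inner δ) := continuous_const.sub (contDiff_step _ _).continuous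
  have cs1 := continuous_step' (δ / 2) δ
  have cs2 := continuous_step'' (δ / 2) δ
  have ch := continuous_hfn hκ j
  have cA := continuous_pA hκ j
  have cB := continuous_pB hκ j
  have cJ : ContinuousOn (formI j Y κ a V) (Icc 0 Y) := by unfold formI; fun_prop
  have cG : ContinuousOn (corePrim δ Y V) (Icc 0 Y) := by unfold corePrim; fun_prop
  have cG' : ContinuousOn (corePrim' δ Y V) (Icc 0 Y) := by unfold corePrim' coreRem; fun_prop
  have cN : ContinuousOn (nI Y V) (Icc 0 Y) := by unfold nI; fun_prop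
  have hcd : δ / 2 < δ := by linarith
  have hz : (∫ y in (0:ℝ)..Y, corePrim' δ Y V y) = 0 := by
    refine integral_deriv_eq_zero hY.le cG cG'
      (fun y hy => hasDerivAt_corePrim hY hV hy) (by simp [corePrim]) ?_
    have h2 : deriv (step (δ / 2) δ) Y = 0 := by
      rcases hδY.eq_or_lt with h | h
      · rw [← h]; exact step'_right hcd
      · exact step'_eq_zero hcd fun hm => absurd hm.2 (not_le.2 h)
    simp [corePrim, inner_right hδ hδY, h2]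
  set Qd : ℝ → ℝ := fun y => qW j δ κ a y * D1 Y V y ^ 2 with hQd
  have cQ : ContinuousOn Qd (Icc 0 Y) := by rw [hQd]; fun_prop
  have hpt : ∀ y ∈ Ioo 0 Y, κ 0 ^ 8 * corePrim' δ Y V y
      + 3 / 100 * (dI j κ a (D2 Y V) y + κ 0 ^ 8 * (inner δ y * nI Y V y))
      ≤ formI j Y κ a V y + (240 * Bs / δ + 100 * C1) * (Qd y + lI j κ V y) := by
    intro y hy
    have h1 := inner_part (V := V) hj6 hδ hδ1 ha hκ hBs hstep hy
    have h2 := outer_part (V := V) (j := j) hδ ha (C1 := 100 * C1) (by positivity)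
      (fun z hz hzδ => by
        have := hcross Y a κ V ha hκ z hz hzδ (1 / 100) (by norm_num) (D1 Y V z) (D2 Y V)
        rwa [show C1 / (1 / 100) = 100 * C1 by ring] at this) hκ hy
    have hD : 0 ≤ dI j κ a (D2 Y V) y := dI_nonneg j hy.1.le (ha.pos y hy).le
    have hN : 0 ≤ κ 0 ^ 8 * (inner δ y * nI Y V y) :=
      mul_nonneg (pow_nonneg (hκ.nonneg 0) 8)
        (mul_nonneg (inner_nonneg _ _) (nI_nonneg hy.1.le))
    have hx := mul_le_of_le_one_left hD (inner_le_one δ y)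
    simp only [hQd]
    linarith
  have h := integral_le_of_Ioo hY.le (by fun_prop) (by fun_prop) hpt
  have i1 := cG'.intervalIntegrable_of_Icc (μ := volume) hY.le
  have iD := cD.intervalIntegrable_of_Icc (μ := volume) hY.le
  have cIN : ContinuousOn (fun y => κ 0 ^ 8 * (inner δ y * nI Y V y)) (Icc 0 Y) := by fun_prop
  have iN := cIN.intervalIntegrable_of_Icc (μ := volume) hY.le
  have iJ := cJ.intervalIntegrable_of_Icc (μ := volume) hY.le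
  have iQ := cQ.intervalIntegrable_of_Icc (μ := volume) hY.le
  have iL := cL.intervalIntegrable_of_Icc (μ := volume) hY.le
  rw [intervalIntegral.integral_add iN ((iQ.add iL).const_mul _),
    intervalIntegral.integral_const_mul (8 / δ ^ 2),
    intervalIntegral.integral_add iQ iL] at hnear
  rw [intervalIntegral.integral_add (i1.const_mul _) ((iD.add iN).const_mul _),
    intervalIntegral.integral_add iJ ((iQ.add iL).const_mul _),
    intervalIntegral.integral_const_mul (κ 0 ^ 8), intervalIntegral.integral_const_mul (3 / 100 : ℝ),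
    intervalIntegral.integral_add iD iN,
    intervalIntegral.integral_const_mul (240 * Bs / δ + 100 * C1),
    intervalIntegral.integral_add iQ iL, hz, mul_zero, zero_add] at h
  have hq : 0 ≤ ∫ y in (0:ℝ)..Y, Qd y := by
    have := integral_le_of_Ioo hY.le (f := fun _ => (0:ℝ)) continuousOn_const cQ
      fun y hy => qW_nonneg ha hκ hy
    simpa using this
  have hl : 0 ≤ ∫ y in (0:ℝ)..Y, lI j κ V y :=
    intervalIntegral.integral_nonneg hY.le fun y hy => lI_nonneg j hy.1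
  have hd : 0 ≤ ∫ y in (0:ℝ)..Y, dI j κ a (D2 Y V) y :=
    intervalIntegral.integral_nonneg hY.le fun y hy => dI_nonneg j hy.1 (ha.nonneg hY hy)
  have hn : 0 ≤ ∫ y in (0:ℝ)..Y, κ 0 ^ 8 * (inner δ y * nI Y V y) :=
    intervalIntegral.integral_nonneg hY.le fun y hy =>
      mul_nonneg (pow_nonneg (hκ.nonneg 0) 8) (mul_nonneg (inner_nonneg _ _) (nI_nonneg hy.1))
  have hA := mul_le_mul_of_nonneg_left hann' hC20.le
  rw [mul_add, ← mul_assoc C2 (1 / (100 * C2)),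
    show C2 * (1 / (100 * C2)) = (1 / 100 : ℝ) by field_simp, ← mul_assoc C2 C3] at hA
  have e1 : ∀ S : ℝ, (240 * Bs / δ + 100 * C1) * S + 8 / δ ^ 2 * S + S = C2 * S := fun S => by
    rw [hC2]; ring
  have := e1 (∫ y in (0:ℝ)..Y, Qd y)
  have := e1 (∫ y in (0:ℝ)..Y, lI j κ V y)
  have h8 : 0 ≤ 8 / δ ^ 2 * ((∫ y in (0:ℝ)..Y, Qd y) + ∫ y in (0:ℝ)..Y, lI j κ V y) := by positivity
  generalize (∫ y in (0:ℝ)..Y, formI j Y κ a V y) = IJ at *
  generalize (∫ y in (0:ℝ)..Y, Qd y) = IQ at *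
  generalize (∫ y in (0:ℝ)..Y, lI j κ V y) = IL at *
  generalize (∫ y in (0:ℝ)..Y, dI j κ a (D2 Y V) y) = ID at *
  generalize (∫ y in (0:ℝ)..Y, κ 0 ^ 8 * (inner δ y * nI Y V y)) = IN at *
  generalize κ 0 ^ 8 * near δ V = NR at *
  have hs : (240 * Bs / δ + 100 * C1) * (IQ + IL) + 8 / δ ^ 2 * (IQ + IL) + (IQ + IL) =
      C2 * (IQ + IL) := e1 _
  linarith

end Vale.Agent.P264.Energy
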