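import Vale.Agent.P264.Energy.Basic

/-!
The pairing with `dst F` after two integrations by parts, and bounds on its coefficients.
-/

namespace Vale.Agent.P264.Energy

open Set Filter MeasureTheory Topology
open scoped ContDiff

/-- First derivative of `wgt j`. -/
noncomputable def wgt1 (j : ℕ) (y : ℝ) : ℝ := -(2 * j * y) * wgt (j + 1) y

/-- Second derivative of `wgt j`. -/
noncomputable def wgt2 (j : ℕ) (y : ℝ) : ℝ :=
  -(2 * j) * wgt (j + 1) y + 4 * j * (j + 1) * y ^ 2 * wgt (j + 1 + 1) y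

/-- The regular factor `κ ^ 8 * (1 + y ^ 2) ^ (-j)` of the multiplier. -/
noncomputable def hfn (j : ℕ) (κ : ℝ → ℝ) (y : ℝ) : ℝ := κ y ^ 8 * wgt j y

/-- Its first derivative. -/
noncomputable def hfn1 (j : ℕ) (κ : ℝ → ℝ) (y : ℝ) : ℝ :=
  8 * κ y ^ 7 * deriv κ y * wgt j y + κ y ^ 8 * wgt1 j y

/-- Its second derivative. -/
noncomputable def hfn2 (j : ℕ) (κ : ℝ → ℝ) (y : ℝ) : ℝ :=
  56 * κ y ^ 6 * deriv κ y ^ 2 * wgt j y + 8 * κ y ^ 7 * deriv (deriv κ) y * wgt j y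
    + 16 * κ y ^ 7 * deriv κ y * wgt1 j y + κ y ^ 8 * wgt2 j y

/-- Coefficient of `V'` in the pairing. -/
noncomputable def pA (j : ℕ) (κ : ℝ → ℝ) (y : ℝ) : ℝ :=
  2 * y ^ 3 * hfn1 j κ y - 8 * y ^ 2 * hfn j κ y

/-- Coefficient of `V` in the pairing. -/
noncomputable def pB (j : ℕ) (κ : ℝ → ℝ) (y : ℝ) : ℝ :=
  y ^ 3 * hfn2 j κ y - 8 * y ^ 2 * hfn1 j κ y + 20 * y * hfn j κ y

lemma continuous_wgt1 (j : ℕ) : Continuous (wgt1 j) := by
  have := continuous_wgt (j + 1); unfold wgt1; fun_prop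

lemma continuous_wgt2 (j : ℕ) : Continuous (wgt2 j) := by
  have := continuous_wgt (j + 1); have := continuous_wgt (j + 1 + 1); unfold wgt2; fun_prop

lemma hasDerivAt_wgt1 (j : ℕ) (y : ℝ) : HasDerivAt (wgt1 j) (wgt2 j y) y := by
  have h := (((hasDerivAt_id y).const_mul (2 * (j:ℝ))).neg).mul (hasDerivAt_wgt (j + 1) y)
  refine h.congr_deriv ?_
  simp only [wgt2, id_eq, Pi.neg_apply]
  push_cast
  ring

section

variable {Y G δ : ℝ} {κ : ℝ → ℝ} (hκ : Cut Y G δ κ) (j : ℕ)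
include hκ

lemma hasDerivAt_hfn (y : ℝ) : HasDerivAt (hfn j κ) (hfn1 j κ y) y := by
  refine (((hκ.hasDerivAt y).pow 8).mul (hasDerivAt_wgt j y)).congr_deriv ?_
  simp only [hfn1, wgt1, Pi.pow_apply]
  push_cast
  ring

lemma hasDerivAt_hfn1 (y : ℝ) : HasDerivAt (hfn1 j κ) (hfn2 j κ y) y := by
  have h := ((((hκ.hasDerivAt y).pow 7).const_mul 8).mul (hκ.hasDerivAt' y)).mul
    (hasDerivAt_wgt j y)
  have h2 := ((hκ.hasDerivAt y).pow 8).mul (hasDerivAt_wgt1 j y)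
  refine (h.add h2).congr_deriv ?_
  simp only [hfn2, wgt1, Pi.pow_apply, Pi.mul_apply]
  push_cast
  ring

lemma continuous_hfn : Continuous (hfn j κ) := by
  have := continuous_wgt j; have := hκ.smooth.continuous; unfold hfn; fun_prop

lemma continuous_hfn1 : Continuous (hfn1 j κ) := by
  have := continuous_wgt j; have := continuous_wgt1 j
  have := hκ.smooth.continuous; have := hκ.contDiff'.continuous
  unfold hfn1; fun_prop

lemma continuous_hfn2 : Continuous (hfn2 j κ) := by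
  have := continuous_wgt j; have := continuous_wgt1 j; have := continuous_wgt2 j
  have := hκ.smooth.continuous; have := hκ.contDiff'.continuous; have := hκ.continuous''
  unfold hfn2; fun_prop

lemma continuous_pA : Continuous (pA j κ) := by
  have := continuous_hfn hκ j; have := continuous_hfn1 hκ j; unfold pA; fun_prop

lemma continuous_pB : Continuous (pB j κ) := by
  have := continuous_hfn hκ j; have := continuous_hfn1 hκ j; have := continuous_hfn2 hκ j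
  unfold pB; fun_prop

/-- Two integrations by parts. -/
lemma pairing {V F : ℝ → ℝ} (hY : 0 < Y) (hV : ContDiffOn ℝ ∞ V (Icc 0 Y))
    (hF : ContDiffOn ℝ ∞ F (Icc 0 Y)) (hE : κ Y = 0 ∨ (F Y = 0 ∧ D1 Y F Y = 0)) :
    (∫ y in (0:ℝ)..Y, κ y ^ 8 * rho j y * V y * dst F y) =
      ∫ y in (0:ℝ)..Y, F y * (y ^ 3 * hfn j κ y * D2 Y V y + pA j κ y * D1 Y V y
        + pB j κ y * V y) := by
  set L : ℝ → ℝ := fun y => hfn j κ y * V y *
    (42 * y * F y + 14 * y ^ 2 * D1 Y F y + y ^ 3 * D2 Y F y) with hL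
  set R : ℝ → ℝ := fun y => F y * (y ^ 3 * hfn j κ y * D2 Y V y + pA j κ y * D1 Y V y
        + pB j κ y * V y) with hR
  have hlhs : (∫ y in (0:ℝ)..Y, κ y ^ 8 * rho j y * V y * dst F y) = ∫ y in (0:ℝ)..Y, L y := by
    refine integral_congr_Ioo hY.le fun y hy => ?_
    have e : deriv (fun z => z ^ 7 * F z) =ᶠ[𝓝 y]
        fun z => 7 * z ^ 6 * F z + z ^ 7 * D1 Y F z := by
      refine eventually_of_mem (Ioo_mem_nhds hy.1 hy.2) fun z hz => ?_
      exact (((hasDerivAt_pow 7 z).mul (hasDerivAt_D1 hF hz)).congr_deriv (by norm_num)).deriv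
    have h6 := (((hasDerivAt_pow 6 y).const_mul 7).mul (hasDerivAt_D1 hF hy)).add
      ((hasDerivAt_pow 7 y).mul (hasDerivAt_D2 hY hF hy))
    have hd : deriv (deriv fun z => z ^ 7 * F z) y =
        42 * y ^ 5 * F y + 14 * y ^ 6 * D1 Y F y + y ^ 7 * D2 Y F y := by
      rw [e.deriv_eq, show (fun z => 7 * z ^ 6 * F z + z ^ 7 * D1 Y F z) =
        ((fun z => 7 * z ^ 6) * F + (fun z => z ^ 7) * D1 Y F) from rfl, h6.deriv]
      push_cast
      ring
    have hy0 : y ≠ 0 := hy.1.ne'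
    simp only [hL, dst, hd, rho_eq, hfn]
    field_simp
  set G : ℝ → ℝ := fun y => hfn j κ y * V y * (7 * y ^ 2 * F y + y ^ 3 * D1 Y F y)
    - F y * ((hfn1 j κ y * V y + hfn j κ y * D1 Y V y) * y ^ 3
      - 4 * y ^ 2 * (hfn j κ y * V y)) with hG
  have c0 := continuous_hfn hκ j
  have c1 := continuous_hfn1 hκ j
  have cA := continuous_pA hκ j
  have cB := continuous_pB hκ j
  have cV := hV.continuousOn
  have cV1 := continuousOn_D1 hY hV
  have cV2 := continuousOn_D2 hY hV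
  have cF := hF.continuousOn
  have cF1 := continuousOn_D1 hY hF
  have cF2 := continuousOn_D2 hY hF
  have cL : ContinuousOn L (Icc 0 Y) := by rw [hL]; fun_prop
  have cR : ContinuousOn R (Icc 0 Y) := by rw [hR]; fun_prop
  have hz : (∫ y in (0:ℝ)..Y, (L y - R y)) = 0 := by
    refine integral_deriv_eq_zero (G := G) hY.le (by rw [hG]; fun_prop) (cL.sub cR) ?_
      (by simp [hG]) ?_
    · intro y hy
      have dv := hasDerivAt_D1 hV hy
      have dv1 := hasDerivAt_D2 hY hV hy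
      have df := hasDerivAt_D1 hF hy
      have df1 := hasDerivAt_D2 hY hF hy
      have dh := hasDerivAt_hfn hκ j y
      have dh1 := hasDerivAt_hfn1 hκ j y
      have d2 : HasDerivAt (fun z : ℝ => z ^ 2) (2 * y) y := by simpa using hasDerivAt_pow 2 y
      have d3 : HasDerivAt (fun z : ℝ => z ^ 3) (3 * y ^ 2) y := by simpa using hasDerivAt_pow 3 y
      have h := ((dh.mul dv).mul (((d2.const_mul 7).mul df).add (d3.mul df1))).sub
        (df.mul ((((dh1.mul dv).add (dh.mul dv1)).mul d3).sub ((d2.const_mul 4).mul (dh.mul dv))))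
      refine h.congr_deriv ?_
      simp only [hL, hR, pA, pB, Pi.add_apply, Pi.mul_apply, Pi.sub_apply]
      ring
    · rcases hE with h | ⟨h, h'⟩
      · simp [hG, hfn, hfn1, h]
      · simp [hG, h, h']
  rw [intervalIntegral.integral_sub (cL.intervalIntegrable_of_Icc hY.le)
    (cR.intervalIntegrable_of_Icc hY.le)] at hz
  rw [hlhs]
  linarith

omit hκ in
lemma pA_eq {y : ℝ} (hy : 0 < y) : pA j κ y = κ y ^ 7 * rho j y *
    (16 * deriv κ y - 4 * j * (κ y * (y * (1 + y ^ 2)⁻¹)) - 8 * (κ y * y⁻¹)) := by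
  have := hy.ne'
  simp only [pA, hfn, hfn1, wgt1, wgt_succ, rho_eq]
  field_simp
  ring

omit hκ in
lemma pB_eq {y : ℝ} (hy : 0 < y) : pB j κ y = κ y ^ 6 * rho j y *
    (56 * deriv κ y ^ 2 + 8 * (κ y * deriv (deriv κ) y)
      - 32 * j * (κ y * deriv κ y * (y * (1 + y ^ 2)⁻¹))
      - 2 * j * (κ y ^ 2 * (1 + y ^ 2)⁻¹)
      + 4 * j * (j + 1) * (κ y ^ 2 * (y * (1 + y ^ 2)⁻¹) ^ 2)
      - 64 * (κ y * deriv κ y * y⁻¹)
      + 16 * j * (κ y ^ 2 * (y * (1 + y ^ 2)⁻¹ * y⁻¹))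
      + 20 * (κ y ^ 2 * y⁻¹ ^ 2)) := by
  have := hy.ne'
  simp only [pB, hfn, hfn1, hfn2, wgt1, wgt2, wgt_succ, rho_eq]
  field_simp
  ring

lemma coef_bounds (hδ : 0 < δ) : ∀ y, δ / 2 ≤ y → y ≤ Y →
    |pA j κ y| ≤ (16 * G + 8 * j + 8 * (1 + 2 / δ)) * (κ y ^ 7 * rho j y * (1 + y)⁻¹) ∧
    |pB j κ y| ≤ (56 * G ^ 2 + 8 * G + 64 * j * G + 4 * j + 16 * j * (j + 1)
        + 64 * (1 + 2 / δ) * G + 32 * j * (1 + 2 / δ) + 20 * (1 + 2 / δ) ^ 2)
      * (κ y ^ 6 * rho j y * ((1 + y)⁻¹) ^ 2) := by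
  intro y hy hyY
  have hy0 : 0 < y := by linarith
  set u := (1 + y)⁻¹ with hu
  set K := 1 + 2 / δ with hK
  have hu0 : 0 < u := by positivity
  have hK0 : 0 < K := by positivity
  have hmem : y ∈ Icc 0 Y := ⟨hy0.le, hyY⟩
  have hk1 : |κ y| ≤ 1 := abs_le.2 ⟨by linarith [hκ.nonneg y], hκ.le_one y⟩
  have hk2 : |κ y ^ 2| ≤ 1 := by rw [abs_pow]; exact pow_le_one₀ (abs_nonneg _) hk1
  have hp : |deriv κ y| ≤ G * u := by
    have := hκ.d1 y hmem; rwa [div_eq_mul_inv] at this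
  have hr : |deriv (deriv κ) y| ≤ G * u ^ 2 := by
    have := hκ.d2 y hmem; rwa [div_eq_mul_inv, ← inv_pow] at this
  have hG : 0 ≤ G := by
    have := (abs_nonneg _).trans hp
    nlinarith
  have hx : (1 + y ^ 2)⁻¹ ≤ 2 * u ^ 2 := xinv_le_uinv_sq hy0.le
  have hxa : |(1 + y ^ 2)⁻¹| ≤ 2 * u ^ 2 := by rwa [abs_of_pos (by positivity)]
  have hz : |y * (1 + y ^ 2)⁻¹| ≤ 2 * u := by
    rw [abs_of_pos (by positivity)]
    calc y * (1 + y ^ 2)⁻¹ ≤ (1 + y) * (2 * u ^ 2) := by gcongr; linarith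
      _ = 2 * u := by rw [hu]; field_simp
  have hi : |y⁻¹| ≤ K * u := by
    rw [abs_of_pos (by positivity), hK, hu, ← div_eq_mul_inv, le_div_iff₀ (by positivity),
      mul_add, mul_one, inv_mul_cancel₀ hy0.ne']
    have : y⁻¹ ≤ 2 / δ := by
      calc y⁻¹ ≤ (δ / 2)⁻¹ := inv_anti₀ (by linarith) hy
        _ = 2 / δ := by rw [inv_div]
    linarith
  have mb : ∀ {a b A B : ℝ}, |a| ≤ A → |b| ≤ B → |a * b| ≤ A * B := fun ha hb => by
    rw [abs_mul]; exact mul_le_mul ha hb (abs_nonneg _) ((abs_nonneg _).trans ha)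
  have hj : (0:ℝ) ≤ j := j.cast_nonneg
  constructor
  · rw [pA_eq j hy0, abs_mul, abs_of_nonneg
      (mul_nonneg (pow_nonneg (hκ.nonneg y) 7) (rho_nonneg j hy0.le)),
      mul_comm (16 * G + 8 * j + 8 * K), mul_assoc _ u]
    refine mul_le_mul_of_nonneg_left (abs_le.2 ?_)
      (mul_nonneg (pow_nonneg (hκ.nonneg y) 7) (rho_nonneg j hy0.le))
    have t1 := abs_le.1 hp
    have t2 := abs_le.1 (mb (le_of_eq (abs_of_nonneg (by positivity : (0:ℝ) ≤ 4 * j))) (mb hk1 hz))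
    have t3 := abs_le.1 (mb hk1 hi)
    constructor <;> linarith
  · rw [pB_eq j hy0, abs_mul, abs_of_nonneg
      (mul_nonneg (pow_nonneg (hκ.nonneg y) 6) (rho_nonneg j hy0.le)),
      mul_comm (56 * G ^ 2 + 8 * G + 64 * j * G + 4 * j + 16 * j * (j + 1) + 64 * K * G
        + 32 * j * K + 20 * K ^ 2), mul_assoc _ (u ^ 2)]
    refine mul_le_mul_of_nonneg_left (abs_le.2 ?_)
      (mul_nonneg (pow_nonneg (hκ.nonneg y) 6) (rho_nonneg j hy0.le))
    have cj : |(32 * j : ℝ)| ≤ 32 * j := le_of_eq (abs_of_nonneg (by positivity))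
    have cj2 : |(2 * j : ℝ)| ≤ 2 * j := le_of_eq (abs_of_nonneg (by positivity))
    have cj4 : |(4 * j * (j + 1) : ℝ)| ≤ 4 * j * (j + 1) := le_of_eq (abs_of_nonneg (by positivity))
    have cj16 : |(16 * j : ℝ)| ≤ 16 * j := le_of_eq (abs_of_nonneg (by positivity))
    have t1 := abs_le.1 (mb hp hp)
    have t2 := abs_le.1 (mb hk1 hr)
    have t3 := abs_le.1 (mb cj (mb (mb hk1 hp) hz))
    have t4 := abs_le.1 (mb cj2 (mb hk2 hxa))
    have t5 := abs_le.1 (mb cj4 (mb hk2 (mb hz hz)))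
    have t6 := abs_le.1 (mb (mb hk1 hp) hi)
    have t7 := abs_le.1 (mb cj16 (mb hk2 (mb hz hi)))
    have t8 := abs_le.1 (mb hk2 (mb hi hi))
    simp only [← sq] at t1 t5 t8
    constructor <;> linarith

/-- Values of the coefficients where the cutoff is constant. -/
lemma coef_flat {y : ℝ} (hy : y < δ) :
    hfn j κ y = κ 0 ^ 8 * wgt j y ∧
    pA j κ y = κ 0 ^ 8 * (2 * y ^ 3 * wgt1 j y - 8 * y ^ 2 * wgt j y) ∧
    pB j κ y = κ 0 ^ 8 * (y ^ 3 * wgt2 j y - 8 * y ^ 2 * wgt1 j y + 20 * y * wgt j y) := by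
  obtain ⟨d1, d2⟩ := hκ.deriv_flat hy
  simp only [pA, pB, hfn, hfn1, hfn2, d1, d2, hκ.flat y hy.le]
  refine ⟨trivial, ?_, ?_⟩ <;> ring

end

end Vale.Agent.P264.Energy
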